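import Vale.Agent.P214.ODET.Vp
import Vale.Agent.P214.ODEF.Pw

/-!
# P214, block ODET: the pointwise bounds (P1)-(P9) at scale `t`, base distance

At a point with `|ft| ≤ t`, `‖Dw‖ ≤ κ t`, and `‖Dw‖ ≤ κ |ft|` where `|ft| ≥ t/4`.
-/

open Set Filter Topology MeasureTheory Metric
open scoped RealInnerProductSpace ContDiff

set_option linter.all false

namespace Vale.Agent.P214.ODET

open FV FM ODEF

variable {E : Type*} [NormedAddCommGroup E] [InnerProductSpace ℝ E] [FiniteDimensional ℝ E]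

/-- ambient gradient of the base function -/
noncomputable def rhF (T : Submodule ℝ E) (w : E → E) (h₁ : ℝ) (z Y : E) : E :=
  adj (Jm T w h₁ Y) (cRm T w z Y)

variable {T S : Submodule ℝ E} {w : E → E} {ε κ h₁ : ℝ} {z Y : E}

section

variable (H : Adm T w ε κ h₁)
include H

lemma inner_rhF_Dm (hY : ‖co T Y‖ < h₁) (v : E) :
    ⟪rhF T w h₁ z Y, Dm w Y (co T Y) v⟫ = ⟪cRm T w z Y, v⟫ :=
  inner_adj_Jm_Dm H hY _ v

lemma inner_cRm_gmF (hX : ft T w z Y ≠ 0) :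
    ⟪cRm T w z Y, gmF T w z Y⟫ = vpm T w z Y * ‖ft T w z Y‖ ^ 2 := by
  have h1 := norm_sq_ft_sub_PS H z Y
  have h2 : ‖ft T w z Y‖ ≠ 0 := norm_ne_zero_iff.2 hX
  unfold vpm
  field_simp
  linarith

/-- `⟨cR, be⟩ = |ft|²` -/
lemma inner_cRm_beF (z Y : E) : ⟪cRm T w z Y, beF T w z Y⟫ = ‖ft T w z Y‖ ^ 2 := by
  have hv := vpm_ge H z Y
  unfold beF
  rw [inner_smul_right]
  by_cases hX : ft T w z Y = 0
  · have h1 : cRm T w z Y = 0 := hX
    rw [h1, hX]; simp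
  · rw [inner_cRm_gmF H hX]
    have : vpm T w z Y ≠ 0 := by linarith
    field_simp

/-- `⟨cR, beT⟩ = |ft|²` -/
lemma inner_cRm_beT (z : E) (t : ℝ) (Y : E) :
    ⟪cRm T w z Y, beT T w z t Y⟫ = ‖ft T w z Y‖ ^ 2 := by
  have h1 : ⟪cRm T w z Y, ft T w z Y⟫ = ‖ft T w z Y‖ ^ 2 := real_inner_self_eq_norm_sq _
  unfold beT
  rw [inner_add_right, inner_smul_right, inner_sub_right, inner_cRm_beF H, h1]
  ring

/-- `⟨rh, om⟩ = 0` -/
lemma inner_rhF_omF (hY : ‖co T Y‖ < h₁) : ⟪rhF T w h₁ z Y, omF T w Y⟫ = 0 := by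
  rw [ODEF.omF_eq H, inner_rhF_Dm H hY, ← star_cRm H, inner_star, star_co, inner_zero_right]

/-- `⟨rh, xg⟩ = vp |ft|²` -/
lemma inner_rhF_xg (hY : ‖co T Y‖ < h₁) :
    ⟪rhF T w h₁ z Y, zeF T w (gmF T w z) Y⟫ = vpm T w z Y * ‖ft T w z Y‖ ^ 2 := by
  unfold zeF
  rw [inner_rhF_Dm H hY]
  by_cases hX : ft T w z Y = 0
  · have h1 := norm_gmF_le_ft H z Y
    rw [hX, norm_zero] at h1
    have h2 : gmF T w z Y = 0 := norm_eq_zero.1 (le_antisymm h1 (norm_nonneg _))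
    rw [h2, hX]; simp
  · exact inner_cRm_gmF H hX

/-- `⟨rh, ze_t⟩ = |ft|²` -/
lemma inner_rhF_ze (hY : ‖co T Y‖ < h₁) (t : ℝ) :
    ⟪rhF T w h₁ z Y, zeF T w (beT T w z t) Y⟫ = ‖ft T w z Y‖ ^ 2 := by
  unfold zeF
  rw [inner_rhF_Dm H hY, inner_cRm_beT H]

/-- the ambient gradient is tangent to the graph -/
lemma PS_rhF (hY : ‖co T Y‖ < h₁) : PS T w Y (rhF T w h₁ z Y) = rhF T w h₁ z Y := by
  have hw := H.ref
  have h0 : co (planeOf T w Y) (rhF T w h₁ z Y) = 0 := by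
    refine ext_inner_right ℝ fun s => ?_
    rw [inner_co, inner_zero_left]
    -- write `s = D₀ v`
    have h1 := H.comp_Jm (T.starProjection Y)
    rw [hw.fderiv_Psi_eq (by rw [co_star, norm_zero]; exact H.hpos)] at h1
    have h2 : Dm w (T.starProjection Y) (co T (T.starProjection Y)) = D0 w Y := by
      ext v
      rw [Dm_apply, co_star, D0_apply, D0_apply, hw.fderiv_base]
      simp [Hw_apply]
    rw [h2] at h1
    set v := Jm T w h₁ (T.starProjection Y) s with hv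
    have h3 : D0 w Y v = s := congrArg (fun L : E →L[ℝ] E => L s) h1
    have h4 : co (planeOf T w Y) s = D0 w Y (co T v) := by
      have h5 := hw.PS_D0 Y v
      rw [h3] at h5
      rw [co_apply]
      show s - PS T w Y s = _
      rw [h5, ← h3, ← map_sub]; rfl
    have h6 : D0 w Y (co T v) = Dm w Y (co T Y) (co T v) := by
      rw [Dm_apply, hw.Hw_co, sub_zero]
    rw [h4, h6, inner_rhF_Dm H hY, ← star_cRm H, inner_star, star_co, inner_zero_right]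
  rw [co_apply, sub_eq_zero] at h0
  exact h0.symm

lemma norm_rhF_le (z Y : E) : ‖rhF T w h₁ z Y‖ ≤ 3 / 2 * ‖ft T w z Y‖ := by
  unfold rhF
  calc _ ≤ ‖Jm T w h₁ Y‖ * ‖cRm T w z Y‖ := norm_adj_apply_le _ _
    _ ≤ 4 / 3 * ‖ft T w z Y‖ := by
        gcongr
        · exact H.norm_Jm_le Y
        · exact le_rfl
    _ ≤ 3 / 2 * ‖ft T w z Y‖ := by
        have := norm_nonneg (ft T w z Y)
        linarith

omit H in
lemma sqrt_le_of_sq {x a b : ℝ} (hb : 0 ≤ b) (ha : 0 ≤ a) (h : x ^ 2 ≤ a * b ^ 2) :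
    x ≤ √a * b := by
  refine abs_le_of_sq_le_sq' ?_ (by positivity) |>.2
  rw [mul_pow, Real.sq_sqrt ha]; exact h

lemma norm_sq_co_PS_le (S : Submodule ℝ E) (hS : Module.finrank ℝ S = Module.finrank ℝ T)
    (Y x : E) (hx : PS T w Y x = x) :
    ‖co S x‖ ^ 2 ≤ FM.eS T w Y S.starProjection * ‖x‖ ^ 2 := by
  have h1 := norm_sq_co_star_le (planeOf T w Y) S x
  have h2 : (planeOf T w Y).starProjection x = x := hx
  rw [h2] at h1
  have h3 : tilt S (planeOf T w Y).starProjection = FM.eS T w Y S.starProjection := by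
    unfold FM.eS
    rw [tilt_star, tilt_star, H.ref.finrank_planeOf, hS, tr_comp_comm]
  rwa [h3] at h1

/-- `|(1-P) rh|² ≤ e |rh|²` -/
lemma norm_sq_co_rhF_le (hY : ‖co T Y‖ < h₁) (hS : Module.finrank ℝ S = Module.finrank ℝ T) :
    ‖co S (rhF T w h₁ z Y)‖ ^ 2
      ≤ FM.eS T w Y S.starProjection * ‖rhF T w h₁ z Y‖ ^ 2 :=
  norm_sq_co_PS_le H S hS Y _ (PS_rhF H hY)

lemma norm_co_rhF_le (hY : ‖co T Y‖ < h₁) (hS : Module.finrank ℝ S = Module.finrank ℝ T) :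
    ‖co S (rhF T w h₁ z Y)‖ ≤ √(FM.eS T w Y S.starProjection) * (3 / 2 * ‖ft T w z Y‖) := by
  have heS : 0 ≤ FM.eS T w Y S.starProjection := tilt_nonneg S (planeOf T w Y)
  refine sqrt_le_of_sq (by positivity) heS ((norm_sq_co_rhF_le H hY hS).trans ?_)
  gcongr
  exact norm_rhF_le H z Y

/-- `|(1-P) D v| ≤ (9/8 √e + κ|u|)|v|` for `v ∈ T` -/
lemma norm_co_Dm_le (hS : Module.finrank ℝ S = Module.finrank ℝ T) (Y v : E)
    (hv : T.starProjection v = v) :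
    ‖co S (Dm w Y (co T Y) v)‖
      ≤ (9 / 8 * √(FM.eS T w Y S.starProjection) + κ * ‖co T Y‖) * ‖v‖ := by
  have hw := H.ref
  have he := eps_le H
  have heS : 0 ≤ FM.eS T w Y S.starProjection := tilt_nonneg S (planeOf T w Y)
  have h1 : PS T w Y (D0 w Y v) = D0 w Y v := by
    have := hw.PS_D0 Y v
    rwa [hv] at this
  have h2 : ‖D0 w Y v‖ ≤ 9 / 8 * ‖v‖ := by
    have h3 : D0 w Y v = v + fderiv ℝ w Y v := by
      rw [D0_apply]
      have : adj (fderiv ℝ w Y) v = 0 := by rw [← hv, hw.adj_fderiv_star]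
      rw [this, sub_zero]
    rw [h3]
    calc _ ≤ ‖v‖ + ‖fderiv ℝ w Y v‖ := norm_add_le _ _
      _ ≤ ‖v‖ + 1 / 16 * ‖v‖ := by
          gcongr
          exact (hw.norm_fderiv_apply_le Y _).trans (by gcongr)
      _ ≤ 9 / 8 * ‖v‖ := by
          have := norm_nonneg v
          linarith
  have h3 : ‖co S (D0 w Y v)‖ ≤ √(FM.eS T w Y S.starProjection) * (9 / 8 * ‖v‖) := by
    refine sqrt_le_of_sq (by positivity) heS ((norm_sq_co_PS_le H S hS Y _ h1).trans ?_)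
    gcongr
  rw [Dm_apply, map_sub]
  calc _ ≤ ‖co S (D0 w Y v)‖ + ‖co S (Hw w Y (co T Y) v)‖ := norm_sub_le _ _
    _ ≤ √(FM.eS T w Y S.starProjection) * (9 / 8 * ‖v‖) + κ * ‖co T Y‖ * ‖v‖ :=
        add_le_add h3 ((norm_co_le S _).trans (hw.norm_Hw_apply_le Y _ v))
    _ = _ := by ring

/-- (P4), two-sided -/
theorem abs_inner_co_rhF_ze_le (hY : ‖co T Y‖ < h₁) {t : ℝ} (ht : 0 < t)
    (hAt : ‖fderiv ℝ w Y‖ ≤ κ * t) (hS : Module.finrank ℝ S = Module.finrank ℝ T) :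
    |⟪co S (rhF T w h₁ z Y), co S (zeF T w (beT T w z t) Y)⟫
        - (vpm T w z Y)⁻¹ * ‖co S (rhF T w h₁ z Y)‖ ^ 2|
      ≤ 4 * (κ * ‖co T Y‖) * ‖ft T w z Y‖ * ‖co S (rhF T w h₁ z Y)‖
        + 8 * (κ * t) ^ 2 * ‖ft T w z Y‖ ^ 2
          * (FM.eS T w Y S.starProjection + (κ * ‖co T Y‖) ^ 2) ∧
    (t / 2 ≤ ‖ft T w z Y‖ →
      |⟪co S (rhF T w h₁ z Y), co S (zeF T w (beT T w z t) Y)⟫
        - (vpm T w z Y)⁻¹ * ‖co S (rhF T w h₁ z Y)‖ ^ 2|
      ≤ 4 * (κ * ‖co T Y‖) * ‖ft T w z Y‖ * ‖co S (rhF T w h₁ z Y)‖) := by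
  have hk := H.ref.knn
  obtain ⟨d, v, hdv, hd, hvT, hv, hv0⟩ := exists_ze_sub H (z := z) hY ht hAt
  set r := rhF T w h₁ z Y with hrd
  set ze := zeF T w (beT T w z t) Y with hze
  have h2 : ze = (vpm T w z Y)⁻¹ • r + (d + Dm w Y (co T Y) v) := by
    have : ze - (vpm T w z Y)⁻¹ • r = d + Dm w Y (co T Y) v := hdv
    rw [← this]; abel
  have h3 : ⟪co S r, co S ze⟫ - (vpm T w z Y)⁻¹ * ‖co S r‖ ^ 2
      = ⟪co S r, co S d⟫ + ⟪co S r, co S (Dm w Y (co T Y) v)⟫ := by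
    rw [h2, map_add, map_smul, inner_add_right, inner_smul_right, real_inner_self_eq_norm_sq,
      map_add, inner_add_right]
    ring
  have h4 : |⟪co S r, co S d⟫| ≤ 4 * (κ * ‖co T Y‖) * ‖ft T w z Y‖ * ‖co S r‖ := by
    calc _ ≤ ‖co S r‖ * ‖co S d‖ := abs_real_inner_le_norm _ _
      _ ≤ ‖co S r‖ * (4 * (κ * ‖co T Y‖) * ‖ft T w z Y‖) := by
          gcongr; exact (norm_co_le S d).trans hd
      _ = _ := by ring
  constructor
  · rw [h3]
    refine (abs_add_le _ _).trans (add_le_add h4 ?_)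
    have heS : 0 ≤ FM.eS T w Y S.starProjection := tilt_nonneg S (planeOf T w Y)
    have k1 := norm_co_rhF_le H (z := z) hY hS
    have k2 := norm_co_Dm_le H hS Y v hvT
    set e := FM.eS T w Y S.starProjection with hed
    set X := ‖ft T w z Y‖ with hX
    set u := κ * ‖co T Y‖ with hu
    have hX0 : 0 ≤ X := norm_nonneg _
    have hu0 : 0 ≤ u := by positivity
    have hs : √e * √e = e := Real.mul_self_sqrt heS
    have hs0 : 0 ≤ √e := Real.sqrt_nonneg _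
    calc _ ≤ ‖co S r‖ * ‖co S (Dm w Y (co T Y) v)‖ := abs_real_inner_le_norm _ _
      _ ≤ (√e * (3 / 2 * X)) * ((9 / 8 * √e + u) * (3 * (κ * t) ^ 2 * X)) := by
          gcongr
          exact k2.trans (by gcongr)
      _ = (κ * t) ^ 2 * X ^ 2 * (81 / 16 * (√e * √e) + 9 / 2 * (√e * u)) := by ring
      _ ≤ (κ * t) ^ 2 * X ^ 2 * (8 * (e + u ^ 2)) := by
          have h5 : 2 * (√e * u) ≤ e + u ^ 2 := by nlinarith [sq_nonneg (√e - u)]
          rw [hs]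
          have h6 : 81 / 16 * e + 9 / 2 * (√e * u) ≤ 8 * (e + u ^ 2) := by nlinarith
          gcongr
      _ = _ := by ring
  · intro hge
    rw [h3, hv0 hge]
    have : co S (Dm w Y (co T Y) 0) = 0 := by rw [map_zero, map_zero]
    rw [this, inner_zero_right, add_zero]
    exact h4

/-- (P5) -/
theorem abs_inner_omF_le (hY : ‖co T Y‖ < h₁) (z : E) (S : Submodule ℝ E) :
    |⟪omF T w Y, S.starProjection (zeF T w (gmF T w z) Y - rhF T w h₁ z Y)⟫|
      ≤ 5 * κ * ‖co T Y‖ ^ 2 * ‖ft T w z Y‖ := by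
  have hk := H.ref.knn
  have h1 : ‖zeF T w (gmF T w z) Y - rhF T w h₁ z Y‖ ≤ 4 * (κ * ‖co T Y‖) * ‖ft T w z Y‖ :=
    norm_xg_sub_le H hY z
  calc _ ≤ ‖omF T w Y‖ * ‖S.starProjection (zeF T w (gmF T w z) Y - rhF T w h₁ z Y)‖ :=
        abs_real_inner_le_norm _ _
    _ ≤ (17 / 16 * ‖co T Y‖) * (4 * (κ * ‖co T Y‖) * ‖ft T w z Y‖) := by
        gcongr
        · exact ODEF.norm_omF_le H Y
        · exact (norm_star_le S _).trans h1
    _ ≤ _ := by
        have : 0 ≤ κ * ‖co T Y‖ ^ 2 * ‖ft T w z Y‖ := by positivity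
        nlinarith

/-- (P6) -/
theorem abs_inner_co_rhF_xg_le (hY : ‖co T Y‖ < h₁) (z : E)
    (hS : Module.finrank ℝ S = Module.finrank ℝ T) :
    |⟪co S (rhF T w h₁ z Y), co S (zeF T w (gmF T w z) Y)⟫|
      ≤ 6 * ‖ft T w z Y‖ ^ 2 * (FM.eS T w Y S.starProjection + (κ * ‖co T Y‖) ^ 2) := by
  have hk := H.ref.knn
  set r := rhF T w h₁ z Y with hrd
  set xg := zeF T w (gmF T w z) Y with hxg
  set X := ‖ft T w z Y‖ with hX
  set u := κ * ‖co T Y‖ with hu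
  have hu0 : 0 ≤ u := by positivity
  have hX0 : 0 ≤ X := norm_nonneg _
  have heS : 0 ≤ FM.eS T w Y S.starProjection := tilt_nonneg S (planeOf T w Y)
  set e := FM.eS T w Y S.starProjection with hed
  have h1 : ‖xg - r‖ ≤ 4 * u * X := norm_xg_sub_le H hY z
  have h3 : ‖co S r‖ ≤ √e * (3 / 2 * X) := norm_co_rhF_le H hY hS
  have h4 : ‖co S xg‖ ≤ √e * (3 / 2 * X) + 4 * u * X := by
    calc ‖co S xg‖ = ‖co S r + co S (xg - r)‖ := by rw [← map_add]; congr 2; abel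
      _ ≤ ‖co S r‖ + ‖co S (xg - r)‖ := norm_add_le _ _
      _ ≤ _ := add_le_add h3 ((norm_co_le S _).trans h1)
  have hs : √e * √e = e := Real.mul_self_sqrt heS
  have hs0 : 0 ≤ √e := Real.sqrt_nonneg _
  calc _ ≤ ‖co S r‖ * ‖co S xg‖ := abs_real_inner_le_norm _ _
    _ ≤ (√e * (3 / 2 * X)) * (√e * (3 / 2 * X) + 4 * u * X) := by gcongr
    _ = X ^ 2 * (9 / 4 * (√e * √e) + 6 * (√e * u)) := by ring
    _ ≤ X ^ 2 * (6 * (e + u ^ 2)) := by
        have h5 : 2 * (√e * u) ≤ e + u ^ 2 := by nlinarith [sq_nonneg (√e - u)]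
        rw [hs]
        have h6 : 9 / 4 * e + 6 * (√e * u) ≤ 6 * (e + u ^ 2) := by nlinarith
        gcongr
    _ = _ := by ring

/-- (P7) -/
theorem vpm_bounds {t : ℝ} (hAt : ‖fderiv ℝ w Y‖ ≤ κ * t) (z : E) :
    1 / 2 ≤ vpm T w z Y ∧ vpm T w z Y ≤ 1 ∧ 1 - vpm T w z Y ≤ (κ * t) ^ 2 :=
  ⟨half_le_vpm H z Y, vpm_le_one H z Y, one_sub_vpm_le H z hAt⟩

omit H in
lemma sqrt_finrank_le : √(Module.finrank ℝ E : ℝ) ≤ Module.finrank ℝ E := by
  have hn : (0:ℝ) ≤ Module.finrank ℝ E := Nat.cast_nonneg _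
  rcases Nat.eq_zero_or_pos (Module.finrank ℝ E) with h0 | h0
  · rw [h0]; simp
  · have h1 : (1:ℝ) ≤ Module.finrank ℝ E := by exact_mod_cast h0
    exact Real.sqrt_le_iff.2 ⟨hn, by nlinarith⟩

/-- (P2) in the form consumed by ODEW -/
theorem pw_ze (hY : ‖co T Y‖ < h₁) {G : Set E} (hG : IsOpen G)
    (hmin : MinimalOver T w G) (hYG : T.starProjection Y ∈ G)
    (hS : Module.finrank ℝ S = Module.finrank ℝ T) {t : ℝ} (ht : 0 < t) (hκ : κ * t ≤ eps0)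
    (hr : ‖ft T w z Y‖ ≤ t) (hAt : ‖fderiv ℝ w Y‖ ≤ κ * t)
    (hpt : t / 4 ≤ ‖ft T w z Y‖ → ‖fderiv ℝ w Y‖ ≤ κ * ‖ft T w z Y‖) :
    |tr (((fderiv ℝ (zeF T w (beT T w z t)) Y).comp (Jm T w h₁ Y)).comp S.starProjection)
        - (divg w Y (beT T w z t Y) (fderiv ℝ (beT T w z t) Y)
            - FM.eS T w Y S.starProjection)|
      ≤ (60 + 3 * Module.finrank ℝ E) *
        (κ * (t + ‖co T Y‖) * FM.eS T w Y S.starProjection
          + κ * ‖co T Y‖ * √(FM.eS T w Y S.starProjection) + (κ * ‖co T Y‖) ^ 2) ∧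
    |divg w Y (beT T w z t Y) (fderiv ℝ (beT T w z t) Y) - Module.finrank ℝ T|
      ≤ cBe (Module.finrank ℝ E) (Module.finrank ℝ T) * (κ * t) ^ 2 := by
  have hw := H.ref
  have hk := hw.knn
  have he := eps_le H
  have he0 := hw.eps_nonneg
  obtain ⟨b, hb, hbn, hbd⟩ := exists_hasFDerivAt_beT H ht hκ hr hAt hpt
  rw [hb.fderiv]
  refine ⟨?_, hbd (hmin Y hYG)⟩
  have hkt : κ * t ≤ 1 / 16 := hκ.trans eps0_le
  have hkt0 : 0 ≤ κ * t := by positivity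
  have key := bulk_ze H hY hG hmin hYG hS hb (beT_base H z t) (star_beT H z t) hbn (by linarith)
  refine key.trans ?_
  have hβ : ‖beT T w z t Y‖ ≤ 2 * t := by
    have h1 := norm_beF_sub_le H (Y := Y) z hAt
    have hcb0 := cb_nonneg (‖ft T w z Y‖ ^ 2 / t ^ 2)
    have hcb1 := cb_le_one (‖ft T w z Y‖ ^ 2 / t ^ 2)
    unfold beT
    calc _ ≤ ‖ft T w z Y‖ + ‖cb (‖ft T w z Y‖ ^ 2 / t ^ 2) • (beF T w z Y - ft T w z Y)‖ :=
          norm_add_le _ _
      _ ≤ t + 1 * (3 * (κ * t) ^ 2 * t) := by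
          rw [norm_smul, Real.norm_eq_abs, abs_of_nonneg hcb0]
          gcongr
          exact h1.trans (by gcongr)
      _ ≤ t + 1 * (3 * (1 / 16) ^ 2 * t) := by gcongr
      _ ≤ 2 * t := by linarith
  have hkg : κ * ‖beT T w z t Y‖ ≤ 2 * (κ * t) := by
    calc _ ≤ κ * (2 * t) := by gcongr
      _ = _ := by ring
  set g := κ * ‖beT T w z t Y‖ with hgd
  have hg0 : 0 ≤ g := by positivity
  set u := κ * ‖co T Y‖ with hu
  have hu0 : 0 ≤ u := by positivity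
  set x := κ * t with hx
  have hku : u ≤ 1 / 16 := by
    calc κ * ‖co T Y‖ ≤ κ * h₁ := by gcongr
      _ ≤ 1 / 16 := H.hκ
  have heS : 0 ≤ FM.eS T w Y S.starProjection := tilt_nonneg S (planeOf T w Y)
  set e := FM.eS T w Y S.starProjection with hed
  have hse : 0 ≤ √e := Real.sqrt_nonneg _
  have hn : (0:ℝ) ≤ Module.finrank ℝ E := Nat.cast_nonneg _
  have h2 : κ ^ 2 * ‖co T Y‖ * ‖beT T w z t Y‖ = u * g := by rw [hu, hgd]; ring
  have e1 : κ * (t + ‖co T Y‖) = x + u := by rw [hx, hu]; ring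
  rw [h2, e1]
  have b1 : 16 * u + 12 * (4 * x) + 2 * g + 8 * (u * g) ≤ 60 * (x + u) := by nlinarith
  have b2 : 8 * ε * u + 8 * g * u + 4 * ε * (u * g) ≤ 3 * u := by
    have : 8 * ε * u + 8 * g * u + 4 * ε * (u * g) = u * (8 * ε + 8 * g + 4 * ε * g) := by ring
    rw [this, mul_comm 3 u]
    gcongr
    nlinarith
  have b3 : 4 * u ^ 2 * ε * g + 2 * (u * g) * u ≤ 3 * u ^ 2 := by
    have : 4 * u ^ 2 * ε * g + 2 * (u * g) * u = u ^ 2 * ((4 * ε + 2) * g) := by ring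
    rw [this, mul_comm 3]
    exact mul_le_mul_of_nonneg_left (by nlinarith) (sq_nonneg u)
  have hn2 := sqrt_finrank_le (E := E)
  calc _ ≤ (60 * (x + u)) * e + Module.finrank ℝ E * (3 * u) * √e
        + Module.finrank ℝ E * (3 * u ^ 2) := by gcongr
    _ ≤ _ := by
        have t3 : 0 ≤ (Module.finrank ℝ E : ℝ) * ((x + u) * e) := by positivity
        have t4 : 0 ≤ u * √e := by positivity
        have t5 : 0 ≤ u ^ 2 := by positivity
        have f2 : (60 + 3 * (Module.finrank ℝ E : ℝ)) * ((x + u) * e + u * √e + u ^ 2)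
            = 60 * (x + u) * e + 3 * ((Module.finrank ℝ E : ℝ) * ((x + u) * e)) + 60 * (u * √e)
              + Module.finrank ℝ E * (3 * u) * √e + 60 * u ^ 2
              + Module.finrank ℝ E * (3 * u ^ 2) := by ring
        rw [f2]
        linarith

/-- (P3) in the form consumed by ODEW -/
theorem pw_xg (hY : ‖co T Y‖ < h₁) {G : Set E} (hG : IsOpen G)
    (hmin : MinimalOver T w G) (hYG : T.starProjection Y ∈ G)
    (hS : Module.finrank ℝ S = Module.finrank ℝ T) {t : ℝ} (hκ : κ * t ≤ 1 / 8)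
    (hr : ‖ft T w z Y‖ ≤ t) (hAt : ‖fderiv ℝ w Y‖ ≤ κ * t) :
    |tr (((fderiv ℝ (zeF T w (gmF T w z)) Y).comp (Jm T w h₁ Y)).comp S.starProjection)
        - (Module.finrank ℝ T - FM.eS T w Y S.starProjection)|
      ≤ (60 + 3 * Module.finrank ℝ E) *
        (κ * (t + ‖co T Y‖) * FM.eS T w Y S.starProjection
          + κ * ‖co T Y‖ * √(FM.eS T w Y S.starProjection) + (κ * ‖co T Y‖) ^ 2)
        + Module.finrank ℝ T * (κ * t) ^ 2 := by
  have hk := H.ref.knn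
  have ha : κ * ‖T.starProjection (Y - z)‖ ≤ κ * t := by
    have : ‖T.starProjection (Y - z)‖ ≤ t := hr
    gcongr
  have hkt0 : 0 ≤ κ * t := (norm_nonneg _).trans hAt
  have hbz := bulk_xg H z hY hG hmin hYG hS hAt ha (by linarith)
  refine hbz.trans ?_
  have heS : 0 ≤ FM.eS T w Y S.starProjection := tilt_nonneg S (planeOf T w Y)
  set e := FM.eS T w Y S.starProjection with hed
  set u := κ * ‖co T Y‖ with hu
  set x := κ * t with hx
  have hu0 : 0 ≤ u := by positivity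
  have hs0 : 0 ≤ √e := Real.sqrt_nonneg _
  have hn : (0:ℝ) ≤ Module.finrank ℝ E := Nat.cast_nonneg _
  have hn2 := sqrt_finrank_le (E := E)
  have e1 : κ * (t + ‖co T Y‖) = x + u := by rw [hx, hu]; ring
  rw [e1]
  have t1 : √(Module.finrank ℝ E : ℝ) * (u * (1 + 9 * x)) * √e
      ≤ Module.finrank ℝ E * (u * (1 + 9 * (1 / 8))) * √e := by
    gcongr
  have t2 : 3 * (Module.finrank ℝ E : ℝ) * u ^ 2 * x ≤ 3 * Module.finrank ℝ E * u ^ 2 * 1 := by
    gcongr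
    linarith
  have t3 : 0 ≤ (Module.finrank ℝ E : ℝ) * ((x + u) * e) := by positivity
  have t4 : 0 ≤ u * √e := by positivity
  have t6 : 0 ≤ (Module.finrank ℝ E : ℝ) * (u * √e) := by positivity
  have t5 : 0 ≤ u ^ 2 := by positivity
  have t7 : 0 ≤ (x + u) * e := by positivity
  have f1 : Module.finrank ℝ E * (u * (1 + 9 * (1 / 8))) * √e
        = (17 / 8) * ((Module.finrank ℝ E : ℝ) * (u * √e)) := by ring
  rw [f1] at t1
  have f0 : 16 * (u + x) * e = 16 * ((x + u) * e) := by ring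
  rw [f0]
  have f2 : (60 + 3 * (Module.finrank ℝ E : ℝ)) * ((x + u) * e + u * √e + u ^ 2)
      = 60 * ((x + u) * e) + 3 * ((Module.finrank ℝ E : ℝ) * ((x + u) * e)) + 60 * (u * √e)
        + 3 * ((Module.finrank ℝ E : ℝ) * (u * √e)) + 60 * u ^ 2
        + 3 * Module.finrank ℝ E * u ^ 2 := by ring
  rw [f2]
  linarith

end

end Vale.Agent.P214.ODET
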