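import Vale.Agent.P214.ODET.TauT
import Vale.Agent.P214.ODEW.Inst

/-!
# P214, block ODET: the two test functions of `CylF.ode`

For a kernel with `KB k k' K B` and a centre `z ∈ T`: `test3_K` and `test3_cB` give the class
`LOCF.Test3` of `M⁻¹ K(aX/t²)` and `M⁻¹ K(aX/t²)(cB (κt)² - tau)`, and `phi_le` the bound by the
kernel `k`, as required by `RC2X.rate_ker`.
-/

open Set Filter Topology MeasureTheory Metric
open scoped RealInnerProductSpace ContDiff

set_option linter.all false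

namespace Vale.Agent.P214.ODET

open FV FM ODE ODEF ODEW

variable {E : Type*} [NormedAddCommGroup E] [InnerProductSpace ℝ E] [FiniteDimensional ℝ E]
  [MeasurableSpace E] [BorelSpace E]
variable {T : Submodule ℝ E} {w : E → E} {ε κ h₁ : ℝ} {z Y : E} {m : ℕ} {G : Set E}
  {k k' K : ℝ → ℝ} {B t M : ℝ}

lemma kb_abs (hk : KB k k' K B) (s : ℝ) (hs : 0 ≤ s) : |K s| ≤ B ∧ |k s| ≤ B ∧ |k' s| ≤ B := by
  rw [abs_of_nonneg (hk.kern.K_nonneg s), abs_of_nonneg (hk.kern.nonneg s)]
  exact ⟨hk.KB s hs, hk.kB s hs, hk.k'B s hs⟩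

/-- the kernel of the distance -/
theorem test3_K (w : E → E) (hz : z ∈ T) (hk : KB k k' K B) (ht : 0 < t) (hM : 3 * B ≤ M) :
    LOCF.Test3 T w z t (fun x => M⁻¹ * K (aX T w z x / t ^ 2)) := by
  have h1 := hk.one
  have h2 := test3_kernel T w z hk.kern (kb_abs hk) (by linarith) ht
    (by linarith : (0:ℝ) < M) hM
  rwa [Submodule.starProjection_eq_self_iff.2 hz] at h2

section

variable (H : Adm T w ε κ h₁) (hT : Module.finrank ℝ T = m) (ht : 0 < t) (hκ : κ * t ≤ eps0)
  (hs : Slp T w z κ t) (hmin : MinimalOver T w G) (hG : BallIn T G z t)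
include H hT ht hκ hs hmin hG

/-- the bound of the defect by `cB` -/
theorem abs_tau_le_cB (hY : ‖bx T z Y‖ ≤ t) :
    |tau m T w z t Y| ≤ cB m (Module.finrank ℝ E) * (κ * t) ^ 2 := by
  have h1 := abs_tau_le_cBe H hT ht (hκ.trans (eps0_le.trans (by norm_num))) hκ hmin hG hY
    (hs.le Y hY) (hs.flat Y)
  refine h1.trans ?_
  gcongr
  unfold cB cBe
  have : (0:ℝ) ≤ Module.finrank ℝ E := Nat.cast_nonneg _
  linarith

/-- **the test function of the defect** -/
theorem test3_cB (hz : z ∈ T) (hk : KB k k' K B) (hM0 : 0 < M)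
    (hM : 6 * (B * ((cB m (Module.finrank ℝ E) + cTau (Module.finrank ℝ E)) * (κ * t) ^ 2)) ≤ M) :
    LOCF.Test3 T w z t (fun x => M⁻¹ * (K (aX T w z x / t ^ 2) *
      (cB m (Module.finrank ℝ E) * (κ * t) ^ 2 - tau m T w z t x))) := by
  have h1 := hk.one
  have hc : 0 ≤ cB m (Module.finrank ℝ E) := by unfold cB; have := cT_nonneg; positivity
  have h2 := test3_phi H hT ht (hκ.trans (eps0_le.trans (by norm_num))) hs.le hk.kern (kb_abs hk)
    (by linarith) hc (fun Y hY => abs_tau_le_cB H hT ht hκ hs hmin hG hY) hM0 hM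
  rwa [Submodule.starProjection_eq_self_iff.2 hz] at h2

/-- the test function of the defect is below the kernel `k` -/
theorem phi_le (hk : KB k k' K B) (x : E) :
    K (aX T w z x / t ^ 2) * (cB m (Module.finrank ℝ E) * (κ * t) ^ 2 - tau m T w z t x) ≤
      (2 * B * cB m (Module.finrank ℝ E) * (κ * t) ^ 2) * k (aX T w z x / t ^ 2) := by
  have h1 := hk.one
  have hc : 0 ≤ cB m (Module.finrank ℝ E) := by unfold cB; have := cT_nonneg; positivity
  have ha : 0 ≤ aX T w z x / t ^ 2 := by unfold aX; positivity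
  have hk0 := hk.kern.nonneg (aX T w z x / t ^ 2)
  rcases le_or_gt 1 (aX T w z x / t ^ 2) with h2 | h2
  · rw [hk.kern.pK.zero _ h2, zero_mul]
    positivity
  · have h3 : ‖bx T z x‖ ≤ t := by
      rw [div_lt_one (by positivity)] at h2
      have h4 : ‖bx T z x‖ ^ 2 < t ^ 2 := h2
      exact (lt_of_pow_lt_pow_left₀ 2 ht.le h4).le
    have h5 := (abs_le.1 (abs_tau_le_cB H hT ht hκ hs hmin hG h3)).1
    calc K (aX T w z x / t ^ 2) * (cB m (Module.finrank ℝ E) * (κ * t) ^ 2 - tau m T w z t x)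
        ≤ (B * k (aX T w z x / t ^ 2)) * (2 * (cB m (Module.finrank ℝ E) * (κ * t) ^ 2)) := by
          refine mul_le_mul (hk.Kk _ ha) (by linarith) ?_ (by positivity)
          have h6 := (abs_le.1 (abs_tau_le_cB H hT ht hκ hs hmin hG h3)).2
          linarith
      _ = _ := by ring

end

end Vale.Agent.P214.ODET
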