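import Vale.Agent.P214.ODET.Tau

/-!
# P214, block ODET: `C^{1,1}` bounds on sets, products, kernels of the base distance

`Bd2 S a b c f`: on `S`, `f` is differentiable, `|f| ≤ a`, `‖Df‖ ≤ b`, `Df` is `c`-Lipschitz.
-/

open Set Filter Topology MeasureTheory Metric
open scoped RealInnerProductSpace ContDiff

set_option linter.all false

namespace Vale.Agent.P214.ODET

open FV FM ODEF

/-- `C^{1,1}` bounds on a set -/
structure Bd2 {E : Type*} [NormedAddCommGroup E] [NormedSpace ℝ E] (S : Set E) (a b c : ℝ)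
    (f : E → ℝ) : Prop where
  diff : ∀ x ∈ S, DifferentiableAt ℝ f x
  b0 : ∀ x ∈ S, |f x| ≤ a
  b1 : ∀ x ∈ S, ‖fderiv ℝ f x‖ ≤ b
  b2 : ∀ x ∈ S, ∀ y ∈ S, ‖fderiv ℝ f x - fderiv ℝ f y‖ ≤ c * ‖x - y‖

namespace Bd2

variable {E : Type*} [NormedAddCommGroup E] [NormedSpace ℝ E] {S S' : Set E}
  {a b c a' b' c' : ℝ} {f g : E → ℝ}

lemma mono (h : Bd2 S a b c f) (hS : S' ⊆ S) (ha : a ≤ a') (hb : b ≤ b') (hc : c ≤ c') :
    Bd2 S' a' b' c' f where
  diff := fun x hx => h.diff x (hS hx)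
  b0 := fun x hx => (h.b0 x (hS hx)).trans ha
  b1 := fun x hx => (h.b1 x (hS hx)).trans hb
  b2 := fun x hx y hy => (h.b2 x (hS hx) y (hS hy)).trans (by gcongr)

lemma lip (h : Bd2 S a b c f) (hS : Convex ℝ S) {x y : E} (hx : x ∈ S) (hy : y ∈ S) :
    |f x - f y| ≤ b * ‖x - y‖ := by
  have := hS.norm_image_sub_le_of_norm_hasFDerivWithin_le (f := f) (f' := fderiv ℝ f) (C := b)
    (fun z hz => (h.diff z hz).hasFDerivAt.hasFDerivWithinAt) h.b1 hy hx
  rwa [Real.norm_eq_abs] at this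

lemma mul (h : Bd2 S a b c f) (h' : Bd2 S a' b' c' g) (hS : Convex ℝ S) (ha : 0 ≤ a)
    (ha' : 0 ≤ a') (hb : 0 ≤ b) (hb' : 0 ≤ b') :
    Bd2 S (a * a') (a * b' + a' * b) (a * c' + 2 * (b * b') + a' * c) (fun x => f x * g x) := by
  have hd : ∀ x ∈ S, fderiv ℝ (fun x => f x * g x) x = f x • fderiv ℝ g x + g x • fderiv ℝ f x :=
    fun x hx => fderiv_fun_mul (h.diff x hx) (h'.diff x hx)
  refine ⟨fun x hx => (h.diff x hx).mul (h'.diff x hx), fun x hx => ?_, fun x hx => ?_,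
    fun x hx y hy => ?_⟩
  · rw [abs_mul]
    have := h.b0 x hx
    have := h'.b0 x hx
    gcongr
  · rw [hd x hx]
    refine (norm_add_le _ _).trans ?_
    rw [norm_smul, norm_smul, Real.norm_eq_abs, Real.norm_eq_abs]
    have := h.b0 x hx
    have := h'.b0 x hx
    have := h.b1 x hx
    have := h'.b1 x hx
    gcongr
  · rw [hd x hx, hd y hy]
    have e1 : f x • fderiv ℝ g x + g x • fderiv ℝ f x - (f y • fderiv ℝ g y + g y • fderiv ℝ f y)
        = (f x • (fderiv ℝ g x - fderiv ℝ g y) + (f x - f y) • fderiv ℝ g y)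
          + (g x • (fderiv ℝ f x - fderiv ℝ f y) + (g x - g y) • fderiv ℝ f y) := by
      module
    rw [e1]
    have k1 := h.b0 x hx
    have k2 := h'.b0 x hx
    have k3 := h.b1 y hy
    have k4 := h'.b1 y hy
    have k5 := h.b2 x hx y hy
    have k6 := h'.b2 x hx y hy
    have k7 := h.lip hS hx hy
    have k8 := h'.lip hS hx hy
    have n0 := norm_nonneg (x - y)
    calc _ ≤ (‖f x • (fderiv ℝ g x - fderiv ℝ g y)‖ + ‖(f x - f y) • fderiv ℝ g y‖)
          + (‖g x • (fderiv ℝ f x - fderiv ℝ f y)‖ + ‖(g x - g y) • fderiv ℝ f y‖) :=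
          (norm_add_le _ _).trans (add_le_add (norm_add_le _ _) (norm_add_le _ _))
      _ = (|f x| * ‖fderiv ℝ g x - fderiv ℝ g y‖ + |f x - f y| * ‖fderiv ℝ g y‖)
          + (|g x| * ‖fderiv ℝ f x - fderiv ℝ f y‖ + |g x - g y| * ‖fderiv ℝ f y‖) := by
          rw [norm_smul, norm_smul, norm_smul, norm_smul]
          simp only [Real.norm_eq_abs]
      _ ≤ (a * (c' * ‖x - y‖) + (b * ‖x - y‖) * b')
          + (a' * (c * ‖x - y‖) + (b' * ‖x - y‖) * b) := by gcongr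
      _ = _ := by ring

lemma const_mul (h : Bd2 S a b c f) {r : ℝ} (hr : 0 ≤ r) :
    Bd2 S (r * a) (r * b) (r * c) (fun x => r * f x) := by
  have hd : ∀ x ∈ S, fderiv ℝ (fun x => r * f x) x = r • fderiv ℝ f x :=
    fun x hx => fderiv_const_mul (h.diff x hx) r
  refine ⟨fun x hx => (h.diff x hx).const_mul r, fun x hx => ?_, fun x hx => ?_,
    fun x hx y hy => ?_⟩
  · rw [abs_mul, abs_of_nonneg hr]
    have := h.b0 x hx
    gcongr
  · rw [hd x hx, norm_smul, Real.norm_eq_abs, abs_of_nonneg hr]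
    have := h.b1 x hx
    gcongr
  · rw [hd x hx, hd y hy, ← smul_sub, norm_smul, Real.norm_eq_abs, abs_of_nonneg hr, mul_assoc]
    have := h.b2 x hx y hy
    gcongr

end Bd2

/-- `C^{1,1}` bounds on a convex set from sizes -/
lemma bd2_of_sz {E : Type*} [NormedAddCommGroup E] [NormedSpace ℝ E] {S : Set E}
    (hS : Convex ℝ S) {t c : ℝ} (ht : 0 < t) {f : E → ℝ} (h : ∀ Y ∈ S, Sz 2 t c f Y) :
    Bd2 S c (c / t) (c / t ^ 2) f := by
  refine ⟨fun Y hY => (h Y hY).smooth.differentiable (by simp) Y, fun Y hY => (h Y hY).norm_le,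
    fun Y hY => ?_, fun x hx y hy => ?_⟩
  · have h1 := (h Y hY).bound 1 (by norm_num)
    rw [le_div_iff₀ ht, ← norm_iteratedFDeriv_one]
    simpa using h1
  · have hs := (h x hx).smooth
    have hs1 : ContDiff ℝ ∞ (fderiv ℝ f) := hs.fderiv_right (by exact_mod_cast le_rfl)
    refine hS.norm_image_sub_le_of_norm_hasFDerivWithin_le (f := fderiv ℝ f)
      (f' := fderiv ℝ (fderiv ℝ f))
      (fun u _ => ((hs1.differentiable (by simp)) u).hasFDerivAt.hasFDerivWithinAt)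
      (fun u hu => ?_) hy hx
    have h1 := (h u hu).bound 2 le_rfl
    rw [le_div_iff₀ (by positivity)]
    rw [← norm_iteratedFDeriv_fderiv, norm_iteratedFDeriv_one] at h1
    exact h1

variable {E : Type*} [NormedAddCommGroup E] [InnerProductSpace ℝ E] [FiniteDimensional ℝ E]
variable {T : Submodule ℝ E} {w : E → E} {ε κ h₁ : ℝ} {z Y : E}

/-- the closed base ball, as a set in the ambient space -/
def bset (T : Submodule ℝ E) (z : E) (t : ℝ) : Set E := {y | ‖bxF T z y‖ ≤ t}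

lemma convex_bset (T : Submodule ℝ E) (z : E) (c : ℝ) : Convex ℝ (bset T z c) := by
  intro a ha b hb s t hs ht hst
  have h1 : bxF T z (s • a + t • b) = s • bxF T z a + t • bxF T z b := by
    unfold bxF
    rw [← map_smul, ← map_smul, ← map_add]
    congr 1
    have : z = s • z + t • z := by rw [← add_smul, hst, one_smul]
    conv_lhs => rw [this]
    rw [smul_sub, smul_sub]; abel
  show ‖bxF T z (s • a + t • b)‖ ≤ c
  rw [h1]
  have ha' : ‖bxF T z a‖ ≤ c := ha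
  have hb' : ‖bxF T z b‖ ≤ c := hb
  calc ‖s • bxF T z a + t • bxF T z b‖ ≤ s * ‖bxF T z a‖ + t * ‖bxF T z b‖ := by
        refine (norm_add_le _ _).trans (le_of_eq ?_)
        rw [norm_smul, norm_smul, Real.norm_eq_abs, Real.norm_eq_abs, abs_of_nonneg hs,
          abs_of_nonneg ht]
    _ ≤ s * c + t * c := by gcongr
    _ = c := by rw [← add_mul, hst, one_mul]

/-- extension of `C^{1,1}` bounds by zero -/
lemma Bd2.global {a b c t : ℝ} {φ : E → ℝ} (h : Bd2 (bset T z t) a b c φ) (ha : 0 ≤ a)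
    (hb : 0 ≤ b) (hc : 0 ≤ c) (hout : ∀ x, t ≤ ‖bxF T z x‖ → φ x = 0 ∧ HasFDerivAt φ (0 : E →L[ℝ] ℝ) x) :
    Bd2 univ a b c φ := by
  have hcase : ∀ x, x ∈ bset T z t ∨ t < ‖bxF T z x‖ := fun x => le_or_gt ‖bxF T z x‖ t
  have key : ∀ x ∈ bset T z t, ∀ y, t < ‖bxF T z y‖ →
      ‖fderiv ℝ φ x - fderiv ℝ φ y‖ ≤ c * ‖x - y‖ := by
    intro x hx y hy
    have hcont : ContinuousOn (fun s : ℝ => ‖bxF T z (x + s • (y - x))‖) (Icc 0 1) := by
      refine Continuous.continuousOn ?_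
      exact ((contDiff_bxF T z).continuous.comp (continuous_const.add
        (continuous_id.smul continuous_const))).norm
    have h0 : ‖bxF T z (x + (0:ℝ) • (y - x))‖ ≤ t := by rw [zero_smul, add_zero]; exact hx
    have h1 : t ≤ ‖bxF T z (x + (1:ℝ) • (y - x))‖ := by
      rw [one_smul, add_sub_cancel]; exact hy.le
    obtain ⟨s, hs, hst⟩ := intermediate_value_Icc zero_le_one hcont ⟨h0, h1⟩
    set p := x + s • (y - x) with hp
    have hpt : ‖bxF T z p‖ = t := hst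
    have d1 : fderiv ℝ φ p = 0 := (hout p hpt.ge).2.fderiv
    have d2 : fderiv ℝ φ y = 0 := (hout y hy.le).2.fderiv
    have h3 := h.b2 x hx p (show ‖bxF T z p‖ ≤ t from hpt.le)
    rw [d1] at h3
    rw [d2]
    refine h3.trans ?_
    have h4 : ‖x - p‖ ≤ ‖x - y‖ := by
      have e : x - p = s • (x - y) := by rw [hp]; module
      rw [e, norm_smul, Real.norm_eq_abs, abs_of_nonneg hs.1]
      calc s * ‖x - y‖ ≤ 1 * ‖x - y‖ := by gcongr; exact hs.2
        _ = _ := one_mul _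
    gcongr
  refine ⟨fun x _ => ?_, fun x _ => ?_, fun x _ => ?_, fun x _ y _ => ?_⟩
  · rcases hcase x with hx | hx
    · exact h.diff x hx
    · exact (hout x hx.le).2.differentiableAt
  · rcases hcase x with hx | hx
    · exact h.b0 x hx
    · rw [(hout x hx.le).1, abs_zero]; exact ha
  · rcases hcase x with hx | hx
    · exact h.b1 x hx
    · rw [(hout x hx.le).2.fderiv, norm_zero]; exact hb
  · rcases hcase x with hx | hx
    · rcases hcase y with hy | hy
      · exact h.b2 x hx y hy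
      · exact key x hx y hy
    · rcases hcase y with hy | hy
      · rw [norm_sub_rev, norm_sub_rev x]
        exact key y hy x hx
      · rw [(hout x hx.le).2.fderiv, (hout y hy.le).2.fderiv, sub_zero, norm_zero]
        positivity

lemma Bd2.contDiff {a b c : ℝ} {φ : E → ℝ} (h : Bd2 univ a b c φ) : ContDiff ℝ 1 φ := by
  rw [contDiff_one_iff_fderiv]
  refine ⟨fun x => h.diff x (mem_univ x), ?_⟩
  rw [continuous_iff_continuousAt]
  intro x
  rw [ContinuousAt, tendsto_iff_norm_sub_tendsto_zero]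
  have h1 : Tendsto (fun y => c * ‖y - x‖) (𝓝 x) (𝓝 0) := by
    have h2 : Continuous fun y : E => c * ‖y - x‖ :=
      continuous_const.mul (continuous_id.sub continuous_const).norm
    have h3 := h2.tendsto x
    simpa using h3
  exact squeeze_zero (fun y => norm_nonneg _) (fun y => h.b2 y (mem_univ y) x (mem_univ x)) h1

/-! ### kernels of the distance -/

/-- a kernel of the base distance is `C^{1,1}` -/
theorem bd2_kernel (T : Submodule ℝ E) (w : E → E) (z : E) {K k k' : ℝ → ℝ} {B t : ℝ}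
    (hK : ∀ s, HasDerivAt K (-(k s) / 2) s)
    (hk : ∀ s, HasDerivAt k (k' s) s) (hK0 : ∀ s, 1 ≤ s → K s = 0)
    (hk0 : ∀ s, 1 ≤ s → k s = 0) (hk'0 : ∀ s, 1 ≤ s → k' s = 0)
    (hB : ∀ s, 0 ≤ s → |K s| ≤ B ∧ |k s| ≤ B ∧ |k' s| ≤ B) (hB0 : 0 ≤ B) (ht : 0 < t) :
    Bd2 univ B (B / t) (3 * B / t ^ 2) (fun y => K (‖ft T w z y‖ ^ 2 / t ^ 2)) ∧
    ∀ y, t ≤ ‖ft T w z y‖ → K (‖ft T w z y‖ ^ 2 / t ^ 2) = 0 ∧
      HasFDerivAt (fun y => K (‖ft T w z y‖ ^ 2 / t ^ 2)) (0 : E →L[ℝ] ℝ) y := by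
  have hs0 : ∀ y, 0 ≤ ‖ft T w z y‖ ^ 2 / t ^ 2 := fun y => by positivity
  have hs1 : ∀ y, t ≤ ‖ft T w z y‖ → 1 ≤ ‖ft T w z y‖ ^ 2 / t ^ 2 := by
    intro y hy
    rw [le_div_iff₀ (by positivity), one_mul]
    gcongr
  have hft : ∀ y, HasFDerivAt (ft T w z) T.starProjection y := fun y => hasFDerivAt_cRm T w z y
  have hXd : ∀ y, HasFDerivAt (fun y => ‖ft T w z y‖ ^ 2 / t ^ 2)
      ((t ^ 2)⁻¹ • ((2:ℝ) • innerSL ℝ (ft T w z y))) y := by
    intro y
    have h0 := (hft y).norm_sq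
    have h1 := h0.mul_const ((t ^ 2)⁻¹)
    have h2 : HasFDerivAt (fun y => ‖ft T w z y‖ ^ 2 / t ^ 2) _ y :=
      h1.congr_of_eventuallyEq (Eventually.of_forall fun x => div_eq_mul_inv _ _)
    refine h2.congr_fderiv ?_
    ext v
    have h3 : ⟪ft T w z y, T.starProjection v⟫ = ⟪ft T w z y, v⟫ := by
      have h4 : T.starProjection (ft T w z y) = ft T w z y := star_self T _
      rw [← inner_star, h4]
    show (t ^ 2)⁻¹ * ((2 • (innerSL ℝ (ft T w z y)).comp T.starProjection) v)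
      = (t ^ 2)⁻¹ * (2 * ⟪ft T w z y, v⟫)
    rw [← h3]
    simp
  set s : E → ℝ := fun y => ‖ft T w z y‖ ^ 2 / t ^ 2 with hs
  have hKd : ∀ y, HasFDerivAt (fun y => K (s y))
      (innerSL ℝ (-(k (s y) / t ^ 2) • ft T w z y)) y := by
    intro y
    refine ((hK (s y)).comp_hasFDerivAt y (hXd y)).congr_fderiv ?_
    ext v
    rw [map_smul]
    show -(k (s y)) / 2 * ((t ^ 2)⁻¹ * (2 * ⟪ft T w z y, v⟫))
      = -(k (s y) / t ^ 2) * ⟪ft T w z y, v⟫
    field_simp
  set G : E → E := fun y => -(k (s y) / t ^ 2) • ft T w z y with hG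
  have hout : ∀ y, t ≤ ‖ft T w z y‖ → K (s y) = 0 ∧ HasFDerivAt (fun y => K (s y)) (0 : E →L[ℝ] ℝ) y := by
    intro y hy
    refine ⟨hK0 _ (hs1 y hy), ?_⟩
    have h1 := hKd y
    rw [hk0 _ (hs1 y hy)] at h1
    simpa using h1
  have hGd : ∀ y, HasFDerivAt G
      (-(k (s y) / t ^ 2) • T.starProjection
        + (-(k' (s y) / t ^ 2) • ((t ^ 2)⁻¹ • ((2:ℝ) • innerSL ℝ (ft T w z y)))).smulRight
          (ft T w z y)) y := by
    intro y
    have h1 : HasFDerivAt (fun y => -(k (s y) / t ^ 2))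
        (-(k' (s y) / t ^ 2) • ((t ^ 2)⁻¹ • ((2:ℝ) • innerSL ℝ (ft T w z y)))) y := by
      have h2 : HasDerivAt (fun r => -(k r / t ^ 2)) (-(k' (s y) / t ^ 2)) (s y) :=
        ((hk (s y)).div_const _).neg
      exact h2.comp_hasFDerivAt y (hXd y)
    exact h1.smul (hft y)
  have hGn : ∀ y, ‖fderiv ℝ G y‖ ≤ 3 * B / t ^ 2 := by
    intro y
    rw [(hGd y).fderiv]
    rcases le_or_gt t ‖ft T w z y‖ with hy | hy
    · rw [hk0 _ (hs1 y hy), hk'0 _ (hs1 y hy)]
      simp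
      positivity
    · obtain ⟨-, hb2, hb3⟩ := hB (s y) (hs0 y)
      have m1 : ‖T.starProjection‖ ≤ 1 := T.starProjection_norm_le
      have m2 : ‖ft T w z y‖ ≤ t := hy.le
      have n1 : ‖-(k (s y) / t ^ 2) • T.starProjection‖ ≤ B / t ^ 2 * 1 := by
        rw [norm_smul, norm_neg, norm_div, Real.norm_eq_abs, Real.norm_eq_abs,
          abs_of_pos (by positivity : (0:ℝ) < t ^ 2)]
        gcongr
      have n2 : ‖(-(k' (s y) / t ^ 2) • ((t ^ 2)⁻¹ • ((2:ℝ) • innerSL ℝ (ft T w z y)))).smulRight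
          (ft T w z y)‖ ≤ B / t ^ 2 * ((t ^ 2)⁻¹ * (2 * t)) * t := by
        have a2 : ‖(2:ℝ)‖ = 2 := by norm_num
        rw [ContinuousLinearMap.norm_smulRight_apply, norm_smul, norm_smul, norm_smul, norm_neg,
          norm_div, norm_inv, Real.norm_eq_abs, Real.norm_eq_abs (t ^ 2),
          abs_of_pos (by positivity : (0:ℝ) < t ^ 2), a2, innerSL_apply_norm]
        gcongr
      refine (norm_add_le _ _).trans ((add_le_add n1 n2).trans (le_of_eq ?_))
      field_simp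
      ring
  have hfd : ∀ y, fderiv ℝ (fun y => K (s y)) y = innerSL ℝ (G y) := fun y => (hKd y).fderiv
  refine ⟨⟨fun y _ => (hKd y).differentiableAt, fun y _ => (hB _ (hs0 y)).1, fun y _ => ?_,
    fun x _ y _ => ?_⟩, hout⟩
  · rw [hfd, innerSL_apply_norm]
    show ‖-(k (s y) / t ^ 2) • ft T w z y‖ ≤ _
    rcases le_or_gt t ‖ft T w z y‖ with hy | hy
    · rw [hk0 _ (hs1 y hy)]
      simp
      positivity
    · obtain ⟨-, hb2, -⟩ := hB (s y) (hs0 y)
      rw [norm_smul, norm_neg, norm_div, Real.norm_eq_abs, Real.norm_eq_abs,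
          abs_of_pos (by positivity : (0:ℝ) < t ^ 2)]
      calc |k (s y)| / t ^ 2 * ‖ft T w z y‖ ≤ B / t ^ 2 * t := by gcongr
        _ = _ := by field_simp
  · rw [hfd, hfd, ← map_sub, innerSL_apply_norm]
    exact (convex_univ (𝕜 := ℝ) (E := E)).norm_image_sub_le_of_norm_hasFDerivWithin_le
      (f := G) (f' := fderiv ℝ G) (fun u _ => ((hGd u).differentiableAt.hasFDerivAt).hasFDerivWithinAt)
      (fun u _ => hGn u) (mem_univ y) (mem_univ x)

end Vale.Agent.P214.ODET
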