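import Vale.Agent.P214.ODEF.Grad

/-!
# P214, block ODET: the gradient field of the base distance

Version of block ODEF for the base distance `|bx|`, `bx = p (Y - z)`: `cRm = bx`,
`gmF = G⁻¹ bx` is the gradient of `|bx|²/2` on the graph, `div gmF = m - tr (G⁻¹ A^* A)` on a
minimal graph.  Pointwise hypothesis: `‖Dw(Y)‖ ≤ κ |bx|`.
-/

open Set Filter Topology MeasureTheory Metric
open scoped RealInnerProductSpace ContDiff

set_option linter.all false

namespace Vale.Agent.P214.ODET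

open FV FM ODEF

variable {E : Type*} [NormedAddCommGroup E] [InnerProductSpace ℝ E] [FiniteDimensional ℝ E]

/-- base position relative to the centre -/
noncomputable def ft (T : Submodule ℝ E) (w : E → E) (z Y : E) : E := T.starProjection (Y - z)

/-- differential of `|bx|²/2` -/
noncomputable def cRm (T : Submodule ℝ E) (w : E → E) (z Y : E) : E := T.starProjection (Y - z)

/-- gradient of `|bx|²/2` on the graph -/
noncomputable def gmF (T : Submodule ℝ E) (w : E → E) (z Y : E) : E :=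
  Gi (fderiv ℝ w Y) (cRm T w z Y)

/-- tilt of the graph against the base plane -/
noncomputable def tlt (w : E → E) (Y : E) : ℝ :=
  trH (Gi (fderiv ℝ w Y) * (adj (fderiv ℝ w Y) * fderiv ℝ w Y))

variable {T : Submodule ℝ E} {w : E → E} {ε κ h₁ : ℝ} {z Y : E}

lemma cRm_eq_ft (T : Submodule ℝ E) (w : E → E) (z Y : E) : cRm T w z Y = ft T w z Y := rfl

section base

variable (H : Adm T w ε κ h₁)
include H

lemma star_cRm (z Y : E) : T.starProjection (cRm T w z Y) = cRm T w z Y := star_self T _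

lemma star_ft (z Y : E) : T.starProjection (ft T w z Y) = ft T w z Y := star_self T _

lemma star_gmF (z Y : E) : T.starProjection (gmF T w z Y) = gmF T w z Y := by
  unfold gmF
  rw [star_Gi_apply H, star_cRm H]

lemma ft_base (z Y : E) : ft T w z (T.starProjection Y) = ft T w z Y := by
  unfold ft
  rw [map_sub, map_sub, star_self]

lemma cRm_base (z Y : E) : cRm T w z (T.starProjection Y) = cRm T w z Y := ft_base H z Y

lemma gmF_base (z Y : E) : gmF T w z (T.starProjection Y) = gmF T w z Y := by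
  unfold gmF
  rw [H.ref.fderiv_base, cRm_base H]

/-- `G gm = cR` -/
lemma G_gmF (z Y : E) : gmF T w z Y + adj (fderiv ℝ w Y) (fderiv ℝ w Y (gmF T w z Y))
    = cRm T w z Y :=
  congrArg (fun L : E →L[ℝ] E => L (cRm T w z Y)) (G_Gi (fderiv ℝ w Y))

/-- `PS ft = gm + A gm` -/
lemma PS_ft (z Y : E) : PS T w Y (ft T w z Y)
    = gmF T w z Y + fderiv ℝ w Y (gmF T w z Y) := by
  have hPS := proj_eq_PS H (Y := T.starProjection Y)
    (by rw [co_star, norm_zero]; exact H.hpos)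
  rw [H.ref.PS_base, H.ref.fderiv_base] at hPS
  rw [← hPS]
  have h1 : (T.starProjection + star (fderiv ℝ w Y)) (ft T w z Y) = cRm T w z Y := by
    show T.starProjection (ft T w z Y) + adj (fderiv ℝ w Y) (ft T w z Y) = _
    rw [star_ft H, ← star_ft H, H.ref.adj_fderiv_star, add_zero, star_ft H]
    rfl
  show (T.starProjection + fderiv ℝ w Y) (Gi (fderiv ℝ w Y)
    ((T.starProjection + star (fderiv ℝ w Y)) (ft T w z Y))) = _
  rw [h1]
  show T.starProjection (gmF T w z Y) + fderiv ℝ w Y (gmF T w z Y) = _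
  rw [star_gmF H]

lemma norm_gmF_le_ft (z Y : E) : ‖gmF T w z Y‖ ≤ ‖ft T w z Y‖ := by
  unfold gmF
  exact norm_Gi_apply_le _ _

lemma norm_cRm_le (z Y : E) : ‖cRm T w z Y‖ ≤ ‖ft T w z Y‖ := le_rfl

/-- the vertical component of the normal part is `- A gm` -/
lemma co_ft_sub_PS (z Y : E) : co T (ft T w z Y - PS T w Y (ft T w z Y))
    = -(fderiv ℝ w Y (gmF T w z Y)) := by
  have hw := H.ref
  have h1 : co T (ft T w z Y) = 0 := by rw [co_apply, star_ft H, sub_self]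
  have h2 : co T (gmF T w z Y) = 0 := by rw [co_apply, star_gmF H, sub_self]
  rw [map_sub, PS_ft H, map_add, h1, h2, hw.co_fderiv, zero_add, zero_sub]

/-- the normal part of the base position is quadratic -/
lemma norm_ft_sub_PS_le (z : E) (hpt : ‖fderiv ℝ w Y‖ ≤ κ * ‖T.starProjection (Y - z)‖) :
    ‖ft T w z Y - PS T w Y (ft T w z Y)‖ ≤ κ * ‖ft T w z Y‖ ^ 2 := by
  have hw := H.ref
  set x := ft T w z Y with hx
  have hxT : T.starProjection x = x := star_ft H z Y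
  have h1 : PS T w Y (x + fderiv ℝ w Y x) = x + fderiv ℝ w Y x := by
    have := hw.PS_D0 Y x
    rw [hxT] at this
    have h2 : D0 w Y x = x + fderiv ℝ w Y x := by
      rw [D0_apply]
      have : adj (fderiv ℝ w Y) x = 0 := by rw [← hxT, hw.adj_fderiv_star]
      rw [this, sub_zero]
    rwa [h2] at this
  have h2 : x - PS T w Y x = -(fderiv ℝ w Y x - PS T w Y (fderiv ℝ w Y x)) := by
    rw [map_add] at h1
    have h3 : PS T w Y x = x + fderiv ℝ w Y x - PS T w Y (fderiv ℝ w Y x) := by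
      rw [← h1]; abel
    rw [h3]; abel
  rw [h2, norm_neg]
  calc ‖fderiv ℝ w Y x - PS T w Y (fderiv ℝ w Y x)‖ ≤ ‖fderiv ℝ w Y x‖ :=
        norm_co_le (planeOf T w Y) _
    _ ≤ ‖fderiv ℝ w Y‖ * ‖x‖ := (fderiv ℝ w Y).le_opNorm x
    _ ≤ (κ * ‖x‖) * ‖x‖ := by gcongr; exact hpt
    _ = _ := by ring

/-- the pointwise slope bound from a horizontal tangent plane at the centre -/
lemma hpt_of (hz : fderiv ℝ w z = 0) (Y : E) :
    ‖fderiv ℝ w Y‖ ≤ κ * ‖T.starProjection (Y - z)‖ := by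
  have hw := H.ref
  have h1 : ‖fderiv ℝ w (T.starProjection Y) - fderiv ℝ w (T.starProjection z)‖
      ≤ κ * ‖T.starProjection Y - T.starProjection z‖ :=
    (convex_univ (𝕜 := ℝ) (E := E)).norm_image_sub_le_of_norm_hasFDerivWithin_le
      (f := fderiv ℝ w) (f' := D2 w) (C := κ)
      (fun z _ => (hw.diff1 z).hasFDerivAt.hasFDerivWithinAt)
      (fun z _ => hw.norm_D2_le z) (mem_univ _) (mem_univ _)
  rw [hw.fderiv_base, hw.fderiv_base, hz, sub_zero, ← map_sub] at h1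
  exact h1

/-- the slope at a point, from the slope at the centre -/
lemma norm_fderiv_le_add (z Y : E) :
    ‖fderiv ℝ w Y‖ ≤ ‖fderiv ℝ w z‖ + κ * ‖T.starProjection (Y - z)‖ := by
  have hw := H.ref
  have h1 : ‖fderiv ℝ w (T.starProjection Y) - fderiv ℝ w (T.starProjection z)‖
      ≤ κ * ‖T.starProjection Y - T.starProjection z‖ :=
    (convex_univ (𝕜 := ℝ) (E := E)).norm_image_sub_le_of_norm_hasFDerivWithin_le
      (f := fderiv ℝ w) (f' := D2 w) (C := κ)
      (fun z _ => (hw.diff1 z).hasFDerivAt.hasFDerivWithinAt)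
      (fun z _ => hw.norm_D2_le z) (mem_univ _) (mem_univ _)
  rw [hw.fderiv_base, hw.fderiv_base, ← map_sub] at h1
  calc ‖fderiv ℝ w Y‖ = ‖fderiv ℝ w z + (fderiv ℝ w Y - fderiv ℝ w z)‖ := by congr 1; abel
    _ ≤ ‖fderiv ℝ w z‖ + ‖fderiv ℝ w Y - fderiv ℝ w z‖ := norm_add_le _ _
    _ ≤ _ := by gcongr

end base

/-! ### differentials -/

/-- derivative of `cRm` -/
lemma hasFDerivAt_cRm (T : Submodule ℝ E) (w : E → E) (z Y : E) :
    HasFDerivAt (cRm T w z) T.starProjection Y := by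
  have h := (T.starProjection.hasFDerivAt (x := Y - z)).comp Y
    ((hasFDerivAt_id Y).sub_const z)
  rwa [ContinuousLinearMap.comp_id] at h

/-- the differential of the gradient field -/
noncomputable def dgm (T : Submodule ℝ E) (w : E → E) (z Y : E) : E →L[ℝ] E :=
  Gi (fderiv ℝ w Y) * T.starProjection
    - Gi (fderiv ℝ w Y) * Hw w Y (fderiv ℝ w Y (gmF T w z Y))
    - Gi (fderiv ℝ w Y) * adj (fderiv ℝ w Y) * D2 w Y (gmF T w z Y)

lemma hasFDerivAt_gmF (H : Adm T w ε κ h₁) (z Y : E) :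
    HasFDerivAt (gmF T w z) (dgm T w z Y) Y := by
  obtain ⟨L, hL, hLv⟩ := exists_hasFDerivAt_Gi H Y
  have hw := H.ref
  have h1 := hL.clm_apply (hasFDerivAt_cRm T w z Y)
  refine h1.congr_fderiv ?_
  ext v
  have e2 : L v (cRm T w z Y) = -(Gi (fderiv ℝ w Y) (adj (fderiv ℝ w Y)
      (D2 w Y v (gmF T w z Y)) + adj (D2 w Y v) (fderiv ℝ w Y (gmF T w z Y)))) := by
    rw [hLv]; rfl
  have e3 : D2 w Y v (gmF T w z Y) = D2 w Y (gmF T w z Y) v := hw.D2_symm _ _ _
  simp only [ContinuousLinearMap.add_apply, ContinuousLinearMap.sub_apply,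
    ContinuousLinearMap.comp_apply, ContinuousLinearMap.flip_apply, dgm, mul_apply', e2, e3,
    map_add, Hw_apply]
  abel

lemma dgm_star (H : Adm T w ε κ h₁) (z Y : E) : dgm T w z Y * T.starProjection = dgm T w z Y :=
  base_deriv_star (hasFDerivAt_gmF H z Y) (gmF_base H z)

lemma star_dgm (H : Adm T w ε κ h₁) (z Y : E) : T.starProjection * dgm T w z Y = dgm T w z Y :=
  star_base_deriv (hasFDerivAt_gmF H z Y) (star_gmF H z)

lemma A_mul_p (H : Adm T w ε κ h₁) (Y : E) : fderiv ℝ w Y * T.starProjection = fderiv ℝ w Y := by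
  ext v; exact H.ref.fderiv_star Y v

/-- `G⁻¹ p = p - G⁻¹ A^* A` -/
lemma Gi_mul_p (H : Adm T w ε κ h₁) (Y : E) : Gi (fderiv ℝ w Y) * T.starProjection
    = T.starProjection - Gi (fderiv ℝ w Y) * (adj (fderiv ℝ w Y) * fderiv ℝ w Y) := by
  have h1 := congrArg (fun L : E →L[ℝ] E => L * T.starProjection) (Gi_G (fderiv ℝ w Y))
  have h2 : Gi (fderiv ℝ w Y) * (1 + star (fderiv ℝ w Y) * fderiv ℝ w Y) * T.starProjection
      = Gi (fderiv ℝ w Y) * T.starProjection
        + Gi (fderiv ℝ w Y) * (adj (fderiv ℝ w Y) * fderiv ℝ w Y) := by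
    rw [mul_assoc, add_mul, one_mul, mul_assoc (star (fderiv ℝ w Y)), A_mul_p H, mul_add]
    rfl
  have h3 : Gi (fderiv ℝ w Y) * (1 + star (fderiv ℝ w Y) * fderiv ℝ w Y) * T.starProjection
      = 1 * T.starProjection := h1
  rw [one_mul, h2] at h3
  rw [eq_sub_iff_add_eq]
  exact h3

/-- **the divergence of the gradient field** -/
theorem divg_gmF (H : Adm T w ε κ h₁) (z Y : E) (hmin : lap w (PS T w Y) Y = 0) :
    divg w Y (gmF T w z Y) (dgm T w z Y) = Module.finrank ℝ T - tlt w Y := by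
  have h1 : trH (Gi (fderiv ℝ w Y) * Hw w Y (fderiv ℝ w Y (gmF T w z Y))) = 0 := by
    rw [tr_Gi_Hw H, hmin, inner_zero_right]
  have h2 : divg w Y (gmF T w z Y) (dgm T w z Y)
      = trH (dgm T w z Y) + trH (Gi (fderiv ℝ w Y) * adj (fderiv ℝ w Y)
          * D2 w Y (gmF T w z Y)) := rfl
  rw [h2]
  unfold dgm
  rw [map_sub, map_sub, h1, Gi_mul_p H, map_sub, trH_starProjection]
  unfold tlt
  ring

lemma hs_star_le (T : Submodule ℝ E) : hs T.starProjection = Module.finrank ℝ T := by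
  rw [hs_eq_trH T.starProjection T.starProjection, trH_starProjection]
  have h1 : star T.starProjection = T.starProjection := adj_star T
  rw [h1]
  ext v
  exact star_self T v

/-- the tilt is quadratic in the slope -/
lemma tlt_bounds (H : Adm T w ε κ h₁) (Y : E) :
    |tlt w Y| ≤ Module.finrank ℝ T * ‖fderiv ℝ w Y‖ ^ 2 := by
  have h1 := abs_tr_mul_le (Gi (fderiv ℝ w Y)) (adj (fderiv ℝ w Y))
  have h2 : star (adj (fderiv ℝ w Y)) = fderiv ℝ w Y := adj_adj _
  rw [h2] at h1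
  unfold tlt
  refine h1.trans ?_
  have h3 : hs (adj (fderiv ℝ w Y)) ≤ Module.finrank ℝ T * ‖fderiv ℝ w Y‖ ^ 2 := by
    have h4 : hs (adj (fderiv ℝ w Y)) = hs (fderiv ℝ w Y) := by
      rw [hs_eq_trH (adj (fderiv ℝ w Y)) (fderiv ℝ w Y * adj (fderiv ℝ w Y)),
        hs_eq_trH (fderiv ℝ w Y) (adj (fderiv ℝ w Y) * fderiv ℝ w Y), trH_comm]
      · rfl
      · rw [h2]
    rw [h4]
    have h5 := hs_mul_le (fderiv ℝ w Y) T.starProjection
    rw [A_mul_p H, hs_star_le] at h5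
    linarith
  calc _ ≤ 1 * hs (adj (fderiv ℝ w Y)) := by
        have : 0 ≤ hs (adj (fderiv ℝ w Y)) := hs_nonneg _
        gcongr
        exact norm_Gi_le _
    _ ≤ _ := by rw [one_mul]; exact h3

lemma norm_dgm_sub_le (H : Adm T w ε κ h₁) (z : E) {a : ℝ}
    (hA : ‖fderiv ℝ w Y‖ ≤ a) (ha : κ * ‖T.starProjection (Y - z)‖ ≤ a) :
    ‖dgm T w z Y - T.starProjection‖ ≤ a := by
  have hw := H.ref
  have hk := hw.knn
  have he := eps_le H
  have he0 := hw.eps_nonneg
  set ρ := ‖T.starProjection (Y - z)‖ with hρ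
  have hρ0 : 0 ≤ ρ := norm_nonneg _
  have hsl := hw.slope Y
  have hAn := norm_nonneg (fderiv ℝ w Y)
  have ha0 : 0 ≤ a := hAn.trans hA
  have e1 : dgm T w z Y - T.starProjection
      = -(Gi (fderiv ℝ w Y) * (adj (fderiv ℝ w Y) * fderiv ℝ w Y)
        + Gi (fderiv ℝ w Y) * Hw w Y (fderiv ℝ w Y (gmF T w z Y))
        + Gi (fderiv ℝ w Y) * adj (fderiv ℝ w Y) * D2 w Y (gmF T w z Y)) := by
    unfold dgm; rw [Gi_mul_p H]; abel
  have hg : ‖gmF T w z Y‖ ≤ ρ := norm_gmF_le_ft H z Y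
  have hgi := norm_Gi_le (fderiv ℝ w Y)
  have n3 : ‖adj (fderiv ℝ w Y)‖ ≤ ε := by rw [norm_adj]; exact hsl
  have n1 : ‖fderiv ℝ w Y (gmF T w z Y)‖ ≤ ε * ρ :=
    (hw.norm_fderiv_apply_le Y _).trans (by gcongr)
  have n2 : ‖D2 w Y (gmF T w z Y)‖ ≤ κ * ρ :=
    ((D2 w Y).le_opNorm _).trans (by gcongr; exact hw.norm_D2_le Y)
  have m1 : ‖Gi (fderiv ℝ w Y) * (adj (fderiv ℝ w Y) * fderiv ℝ w Y)‖ ≤ 1 * (ε * a) := by
    refine (norm_mul_le _ _).trans ?_
    gcongr
    refine (norm_mul_le _ _).trans ?_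
    gcongr
  have m2 : ‖Gi (fderiv ℝ w Y) * Hw w Y (fderiv ℝ w Y (gmF T w z Y))‖ ≤ 1 * (κ * (ε * ρ)) := by
    refine (norm_mul_le _ _).trans ?_
    gcongr
    exact (hw.norm_Hw_le Y _).trans (by gcongr)
  have m3 : ‖Gi (fderiv ℝ w Y) * adj (fderiv ℝ w Y) * D2 w Y (gmF T w z Y)‖
      ≤ (1 * ε) * (κ * ρ) := by
    refine (norm_mul_le _ _).trans ?_
    gcongr
    refine (norm_mul_le _ _).trans ?_
    gcongr
  rw [e1, norm_neg]
  calc _ ≤ 1 * (ε * a) + 1 * (κ * (ε * ρ)) + (1 * ε) * (κ * ρ) :=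
        norm_add₃_le.trans (add_le_add (add_le_add m1 m2) m3)
    _ = ε * a + 2 * ε * (κ * ρ) := by ring
    _ ≤ ε * a + 2 * ε * a := by gcongr
    _ = a * (3 * ε) := by ring
    _ ≤ a * 1 := by gcongr; linarith
    _ = _ := mul_one _

/-- **bulk term of the gradient field** `xg = DΨ(gm)`. -/
theorem bulk_xg (H : Adm T w ε κ h₁) (z : E) (hY : ‖co T Y‖ < h₁) {G : Set E} (hG : IsOpen G)
    (hmin : MinimalOver T w G) (hYG : T.starProjection Y ∈ G) {S : Submodule ℝ E}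
    (hS : Module.finrank ℝ S = Module.finrank ℝ T) {a : ℝ}
    (hA : ‖fderiv ℝ w Y‖ ≤ a) (ha : κ * ‖T.starProjection (Y - z)‖ ≤ a)
    (hr : a ≤ 1) :
    |tr (((fderiv ℝ (zeF T w (gmF T w z)) Y).comp (Jm T w h₁ Y)).comp S.starProjection)
        - (Module.finrank ℝ T - FM.eS T w Y S.starProjection)|
      ≤ 16 * (κ * ‖co T Y‖ + a) * FM.eS T w Y S.starProjection
        + √(Module.finrank ℝ E) * (κ * ‖co T Y‖ * (1 + 9 * a))
            * √(FM.eS T w Y S.starProjection)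
        + 3 * Module.finrank ℝ E * (κ * ‖co T Y‖) ^ 2 * a
        + Module.finrank ℝ T * a ^ 2 := by
  have hw := H.ref
  have hk := hw.knn
  have he := eps_le H
  have he0 := hw.eps_nonneg
  have hAn := norm_nonneg (fderiv ℝ w Y)
  have ha0 : 0 ≤ a := hAn.trans hA
  have htl : |tlt w Y| ≤ Module.finrank ℝ T * a ^ 2 := by
    refine (tlt_bounds H Y).trans ?_
    gcongr
  have key := bulk_ze (b := dgm T w z Y) H hY hG hmin hYG hS (hasFDerivAt_gmF H z Y)
    (gmF_base H z) (star_gmF H z) (norm_dgm_sub_le H z hA ha) hr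
  rw [divg_gmF H z Y (hmin Y hYG)] at key
  set ρ := ‖T.starProjection (Y - z)‖ with hρ
  have hρ0 : 0 ≤ ρ := norm_nonneg _
  set u := ‖co T Y‖ with hu
  have hu0 : 0 ≤ u := norm_nonneg _
  have hg : ‖gmF T w z Y‖ ≤ ρ := norm_gmF_le_ft H z Y
  set g := ‖gmF T w z Y‖ with hgd
  have hg0 : 0 ≤ g := norm_nonneg _
  have hku : κ * u ≤ 1 / 16 := by
    calc κ * u ≤ κ * h₁ := by gcongr
      _ ≤ 1 / 16 := H.hκ
  have hku0 : 0 ≤ κ * u := by positivity
  have heS : 0 ≤ FM.eS T w Y S.starProjection := tilt_nonneg S (planeOf T w Y)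
  set e := FM.eS T w Y S.starProjection with hed
  have hse : 0 ≤ √e := Real.sqrt_nonneg _
  have hkg : κ * g ≤ a := le_trans (by gcongr) ha
  have hkg0 : 0 ≤ κ * g := by positivity
  have hn : (0:ℝ) ≤ Module.finrank ℝ E := Nat.cast_nonneg _
  have b1 : 16 * (κ * u) + 12 * a + 2 * (κ * g) + 8 * (κ ^ 2 * u * g)
      ≤ 16 * (κ * u + a) := by
    have : κ ^ 2 * u * g = (κ * u) * (κ * g) := by ring
    rw [this]
    nlinarith
  have b2 : 8 * ε * (κ * u) + 8 * (κ * g) * (κ * u) + 4 * ε * (κ ^ 2 * u * g)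
      ≤ κ * u * (1 + 9 * a) := by
    have h1 : κ ^ 2 * u * g = (κ * u) * (κ * g) := by ring
    rw [h1]
    have h2 : 8 * ε ≤ 1 / 2 := by linarith
    have h3 : (8 + 4 * ε) * (κ * g) ≤ 9 * a := by
      calc (8 + 4 * ε) * (κ * g) ≤ (8 + 4 * (1 / 16)) * a := by gcongr
        _ ≤ 9 * a := by linarith
    calc 8 * ε * (κ * u) + 8 * (κ * g) * (κ * u) + 4 * ε * (κ * u * (κ * g))
        = (κ * u) * (8 * ε + (8 + 4 * ε) * (κ * g)) := by ring
      _ ≤ (κ * u) * (1 + 9 * a) := by gcongr; linarith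
  have b3 : 4 * (κ * u) ^ 2 * ε * (κ * g) + 2 * (κ ^ 2 * u * g) * (κ * u)
      ≤ 3 * (κ * u) ^ 2 * a := by
    have h1 : 4 * (κ * u) ^ 2 * ε * (κ * g) + 2 * (κ ^ 2 * u * g) * (κ * u)
        = (κ * u) ^ 2 * ((4 * ε + 2) * (κ * g)) := by ring
    rw [h1]
    have h3 : (4 * ε + 2) * (κ * g) ≤ 3 * a := by
      calc (4 * ε + 2) * (κ * g) ≤ (4 * (1 / 16) + 2) * a := by gcongr
        _ ≤ 3 * a := by linarith
    calc (κ * u) ^ 2 * ((4 * ε + 2) * (κ * g)) ≤ (κ * u) ^ 2 * (3 * a) := by gcongr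
      _ = _ := by ring
  have key2 : (16 * (κ * u) + 12 * a + 2 * (κ * g) + 8 * (κ ^ 2 * u * g)) * e
        + √(Module.finrank ℝ E) * (8 * ε * (κ * u) + 8 * (κ * g) * (κ * u)
            + 4 * ε * (κ ^ 2 * u * g)) * √e
        + Module.finrank ℝ E * (4 * (κ * u) ^ 2 * ε * (κ * g)
            + 2 * (κ ^ 2 * u * g) * (κ * u))
      ≤ 16 * (κ * u + a) * e
        + √(Module.finrank ℝ E) * (κ * u * (1 + 9 * a)) * √e
        + 3 * Module.finrank ℝ E * (κ * u) ^ 2 * a := by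
    calc _ ≤ (16 * (κ * u + a)) * e
        + √(Module.finrank ℝ E) * (κ * u * (1 + 9 * a)) * √e
        + Module.finrank ℝ E * (3 * (κ * u) ^ 2 * a) := by gcongr
      _ = _ := by ring
  have key3 := key.trans key2
  set tr0 := tr (((fderiv ℝ (zeF T w (gmF T w z)) Y).comp (Jm T w h₁ Y)).comp S.starProjection)
  have e0 : tr0 - (Module.finrank ℝ T - e)
      = (tr0 - (Module.finrank ℝ T - tlt w Y - e)) - tlt w Y := by ring
  rw [e0]
  refine (abs_sub _ _).trans ?_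
  linarith

end Vale.Agent.P214.ODET
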