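import Vale.Agent.P214.ODET.Vp
import Vale.Agent.P214.ODEF.TauS

/-!
# P214, block ODET: sizes of the fields at scale `t`

`‖D^j f(Y)‖ t^j ≤ c` for `j ≤ 3`, at a point with `|bx| ≤ t`, `‖Dw‖ ≤ κ t`.
-/

open Set Filter Topology MeasureTheory Metric
open scoped RealInnerProductSpace ContDiff

set_option linter.all false

namespace Vale.Agent.P214.ODET

open FV FM ODEF

section gen

variable {E F : Type*} [NormedAddCommGroup E] [NormedSpace ℝ E] [NormedAddCommGroup F]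
  [NormedSpace ℝ F]
variable {k : ℕ} {ρ c c' : ℝ} {Y : E}

/-- scalar multiplication -/
lemma _root_.Vale.Agent.P214.ODEF.Sz.smul' (hρ : 0 ≤ ρ) {f : E → ℝ} {g : E → F}
    (hf : Sz k ρ c f Y) (hg : Sz k ρ c' g Y) :
    Sz k ρ (2 ^ k * (c * c')) (fun y => f y • g y) Y :=
  hf.bilin' hρ (ContinuousLinearMap.lsmul ℝ ℝ) ContinuousLinearMap.opNorm_lsmul_le hg

/-- multiplication by a constant -/
lemma _root_.Vale.Agent.P214.ODEF.Sz.const_mul' {f : E → ℝ} (hf : Sz k ρ c f Y) (hρ : 0 ≤ ρ)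
    (r : ℝ) : Sz k ρ (|r| * c) (fun y => r * f y) Y := by
  refine ⟨contDiff_const.mul hf.smooth, fun j hj => ?_⟩
  have h1 : iteratedFDeriv ℝ j (fun y => r * f y) Y = r • iteratedFDeriv ℝ j f Y := by
    have : (fun y => r * f y) = fun y => r • f y := rfl
    rw [this, iteratedFDeriv_const_smul_apply' (hf.contDiffAt j)]
  rw [h1, norm_smul, Real.norm_eq_abs, mul_assoc]
  have := hf.bound j hj
  gcongr

/-- composition with a function of one variable, one step -/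
lemma sz_comp_step (hρ : 0 < ρ) {φ φ' : ℝ → ℝ} {s : E → ℝ} {cs a a' : ℝ}
    (hφ : ∀ r, HasDerivAt φ (φ' r) r) (hφs : ContDiff ℝ ∞ φ) (hs : Sz (k + 1) ρ cs s Y)
    (h0 : |φ (s Y)| ≤ a) (h1 : Sz k ρ a' (fun y => φ' (s y)) Y)
    (h2 : 2 ^ k * (a' * cs) ≤ a) : Sz (k + 1) ρ a (fun y => φ (s y)) Y := by
  have hd : fderiv ℝ (fun y => φ (s y)) = fun y => φ' (s y) • fderiv ℝ s y := by
    funext y
    have h3 : HasFDerivAt s (fderiv ℝ s y) y :=
      (hs.smooth.differentiable (by simp) y).hasFDerivAt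
    exact ((hφ (s y)).comp_hasFDerivAt y h3).fderiv
  refine Sz.of_fderiv hρ.le (c' := 2 ^ k * (a' * (cs / ρ))) (hφs.comp hs.smooth)
    (by rw [Real.norm_eq_abs]; exact h0) ?_ ?_
  · rw [hd]
    exact h1.smul' hρ.le (hs.fderiv hρ)
  · calc 2 ^ k * (a' * (cs / ρ)) * ρ = 2 ^ k * (a' * cs) := by field_simp
      _ ≤ a := h2

/-- composition with a function of one variable whose derivatives up to order three are bounded -/
lemma sz_comp (hρ : 0 < ρ) {φ φ1 φ2 φ3 : ℝ → ℝ} {s : E → ℝ} {cs b : ℝ} (hcs : 1 ≤ cs)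
    (hφ : ∀ r, HasDerivAt φ (φ1 r) r) (hφ1 : ∀ r, HasDerivAt φ1 (φ2 r) r)
    (hφ2 : ∀ r, HasDerivAt φ2 (φ3 r) r)
    (hφs : ContDiff ℝ ∞ φ) (hφs1 : ContDiff ℝ ∞ φ1) (hφs2 : ContDiff ℝ ∞ φ2)
    (hφs3 : ContDiff ℝ ∞ φ3) (hb : 0 ≤ b) (h0 : ∀ r, |φ r| ≤ b) (h1 : ∀ r, |φ1 r| ≤ b)
    (h2 : ∀ r, |φ2 r| ≤ b) (h3 : ∀ r, |φ3 r| ≤ b) (hs : Sz 3 ρ cs s Y) :
    Sz 3 ρ (8 * cs ^ 3 * b) (fun y => φ (s y)) Y := by
  have hcs0 : 0 ≤ cs := by linarith
  have k0 : Sz 0 ρ b (fun y => φ3 (s y)) Y := by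
    refine ⟨hφs3.comp hs.smooth, fun j hj => ?_⟩
    have : j = 0 := by omega
    subst this
    simpa using h3 (s Y)
  have p1 : cs ≤ cs ^ 2 := by nlinarith
  have p2 : cs ^ 2 ≤ cs ^ 3 := by nlinarith [sq_nonneg cs]
  have k1 : Sz 1 ρ (cs * b) (fun y => φ2 (s y)) Y :=
    sz_comp_step hρ hφ2 hφs2 (hs.of_le (by norm_num)) ((h2 _).trans (by nlinarith)) k0
      (by norm_num; exact le_of_eq (by ring))
  have k2 : Sz 2 ρ (2 * cs ^ 2 * b) (fun y => φ1 (s y)) Y :=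
    sz_comp_step hρ hφ1 hφs1 (hs.of_le (by norm_num)) ((h1 _).trans (by nlinarith)) k1
      (by norm_num; exact le_of_eq (by ring))
  exact sz_comp_step hρ hφ hφs hs ((h0 _).trans (by nlinarith)) k2
      (by norm_num; exact le_of_eq (by ring))

/-- the inverse of a function bounded below, one step -/
lemma sz_inv_step (hρ : 0 < ρ) {S : E → ℝ} {σ a a' : ℝ} (hS : Sz (k + 1) ρ σ S Y)
    (hpos : ∀ y, 0 < S y) (h0 : (S Y)⁻¹ ≤ a) (h1 : Sz k ρ a' (fun y => (S y)⁻¹) Y)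
    (h2 : 2 ^ k * (2 ^ k * (a' * a') * σ) ≤ a) : Sz (k + 1) ρ a (fun y => (S y)⁻¹) Y := by
  have hd : fderiv ℝ (fun y => (S y)⁻¹) = fun y => -(((S y)⁻¹ * (S y)⁻¹) • fderiv ℝ S y) := by
    funext y
    have h3 : HasFDerivAt S (fderiv ℝ S y) y :=
      (hS.smooth.differentiable (by simp) y).hasFDerivAt
    have h4 := ((hasDerivAt_inv (hpos y).ne').comp_hasFDerivAt y h3).fderiv
    refine h4.trans ?_
    rw [← neg_smul]
    congr 1
    rw [← mul_inv, sq]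
  have hs : ContDiff ℝ ∞ (fun y => (S y)⁻¹) := hS.smooth.inv fun y => (hpos y).ne'
  refine Sz.of_fderiv hρ.le (c' := 2 ^ k * (2 ^ k * (a' * a') * (σ / ρ))) hs ?_ ?_ ?_
  · rw [Real.norm_eq_abs, abs_of_pos (inv_pos.2 (hpos Y))]; exact h0
  · rw [hd]
    exact ((h1.mul hρ.le h1).smul' hρ.le (hS.fderiv hρ)).neg
  · calc 2 ^ k * (2 ^ k * (a' * a') * (σ / ρ)) * ρ = 2 ^ k * (2 ^ k * (a' * a') * σ) := by
          field_simp
      _ ≤ a := h2

/-- constants of the inverse -/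
noncomputable def iC (σ r0 : ℝ) : ℝ :=
  (r0 + r0 ^ 2 * σ + 4 * (r0 + r0 ^ 2 * σ) ^ 2 * σ)
    + 16 * (r0 + r0 ^ 2 * σ + 4 * (r0 + r0 ^ 2 * σ) ^ 2 * σ) ^ 2 * σ

lemma iC_nonneg {σ r0 : ℝ} (hσ : 0 ≤ σ) (hr : 0 ≤ r0) : 0 ≤ iC σ r0 := by
  unfold iC; positivity

lemma sz_inv (hρ : 0 < ρ) {S : E → ℝ} {σ r0 : ℝ} (hS : Sz 3 ρ σ S Y)
    (hpos : ∀ y, 0 < S y) (h0 : (S Y)⁻¹ ≤ r0) : Sz 3 ρ (iC σ r0) (fun y => (S y)⁻¹) Y := by
  have hσ := hS.nonneg
  have hr0 : 0 ≤ r0 := (inv_pos.2 (hpos Y)).le.trans h0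
  have k0 : Sz 0 ρ r0 (fun y => (S y)⁻¹) Y := by
    refine ⟨hS.smooth.inv fun y => (hpos y).ne', fun j hj => ?_⟩
    have : j = 0 := by omega
    subst this
    rw [norm_iteratedFDeriv_zero, pow_zero, mul_one, Real.norm_eq_abs,
      abs_of_pos (inv_pos.2 (hpos Y))]
    exact h0
  set r1 := r0 + r0 ^ 2 * σ with hr1
  have hr1' : 0 ≤ r0 ^ 2 * σ := by positivity
  have k1 : Sz 1 ρ r1 (fun y => (S y)⁻¹) Y := by
    refine sz_inv_step hρ (hS.of_le (by norm_num)) hpos (h0.trans (by linarith)) k0 ?_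
    norm_num
    nlinarith
  set r2 := r1 + 4 * r1 ^ 2 * σ with hr2
  have hr2' : 0 ≤ 4 * r1 ^ 2 * σ := by positivity
  have k2 : Sz 2 ρ r2 (fun y => (S y)⁻¹) Y := by
    refine sz_inv_step hρ (hS.of_le (by norm_num)) hpos (h0.trans (by linarith)) k1 ?_
    have : 2 ^ 1 * (2 ^ 1 * (r1 * r1) * σ) = 4 * r1 ^ 2 * σ := by ring
    rw [this]; linarith
  refine sz_inv_step hρ hS hpos (h0.trans ?_) k2 ?_
  · unfold iC
    have : 0 ≤ 16 * r2 ^ 2 * σ := by positivity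
    rw [← hr1, ← hr2]; linarith
  · have : 2 ^ 2 * (2 ^ 2 * (r2 * r2) * σ) = 16 * r2 ^ 2 * σ := by ring
    rw [this]
    unfold iC
    rw [← hr1, ← hr2]; linarith

end gen

/-! ### the cut-off -/

lemma contDiff_cb : ContDiff ℝ ∞ cb := by
  unfold cb
  exact Real.smoothTransition.contDiff.comp
    (((contDiff_const.mul contDiff_id).sub contDiff_const).div_const _)

lemma exists_cb_bound : ∃ b : ℝ, 1 ≤ b ∧ (∀ r, |cb r| ≤ b) ∧ (∀ r, |deriv cb r| ≤ b) ∧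
    (∀ r, |deriv (deriv cb) r| ≤ b) ∧ (∀ r, |deriv (deriv (deriv cb)) r| ≤ b) := by
  have hc1 : ContDiff ℝ ∞ (deriv cb) := (contDiff_infty_iff_deriv.1 contDiff_cb).2
  have hc2 : ContDiff ℝ ∞ (deriv (deriv cb)) := (contDiff_infty_iff_deriv.1 hc1).2
  have hc3 : ContDiff ℝ ∞ (deriv (deriv (deriv cb))) := (contDiff_infty_iff_deriv.1 hc2).2
  obtain ⟨B1, h1⟩ := (isCompact_Icc (a := (0:ℝ)) (b := 1)).exists_bound_of_continuousOn
    hc1.continuous.continuousOn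
  obtain ⟨B2, h2⟩ := (isCompact_Icc (a := (0:ℝ)) (b := 1)).exists_bound_of_continuousOn
    hc2.continuous.continuousOn
  obtain ⟨B3, h3⟩ := (isCompact_Icc (a := (0:ℝ)) (b := 1)).exists_bound_of_continuousOn
    hc3.continuous.continuousOn
  have hloc : ∀ r, r ∉ Icc (0:ℝ) 1 → ∃ c : ℝ, cb =ᶠ[𝓝 r] fun _ => c := by
    intro r hr
    rw [mem_Icc, not_and_or, not_le, not_le] at hr
    rcases hr with hr | hr
    · refine ⟨0, ?_⟩
      filter_upwards [gt_mem_nhds hr] with x hx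
      exact cb_zero (by linarith)
    · refine ⟨1, ?_⟩
      filter_upwards [lt_mem_nhds hr] with x hx
      exact cb_one (by linarith)
  have z1 : ∀ r, r ∉ Icc (0:ℝ) 1 → deriv cb =ᶠ[𝓝 r] fun _ => 0 := by
    intro r hr
    obtain ⟨c, hc⟩ := hloc r hr
    have := hc.deriv
    simpa using this
  have z2 : ∀ r, r ∉ Icc (0:ℝ) 1 → deriv (deriv cb) =ᶠ[𝓝 r] fun _ => 0 := by
    intro r hr
    have := (z1 r hr).deriv
    simpa using this
  have z3 : ∀ r, r ∉ Icc (0:ℝ) 1 → deriv (deriv (deriv cb)) =ᶠ[𝓝 r] fun _ => 0 := by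
    intro r hr
    have := (z2 r hr).deriv
    simpa using this
  refine ⟨max 1 (max B1 (max B2 B3)), le_max_left _ _, fun r => ?_, fun r => ?_, fun r => ?_,
    fun r => ?_⟩
  · rw [abs_of_nonneg (cb_nonneg r)]
    exact (cb_le_one r).trans (le_max_left _ _)
  · by_cases hr : r ∈ Icc (0:ℝ) 1
    · exact (h1 r hr).trans ((le_max_left _ _).trans (le_max_right _ _))
    · rw [(z1 r hr).eq_of_nhds, abs_zero]; exact le_trans zero_le_one (le_max_left _ _)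
  · by_cases hr : r ∈ Icc (0:ℝ) 1
    · exact (h2 r hr).trans ((le_max_left _ _).trans ((le_max_right _ _).trans
        (le_max_right _ _)))
    · rw [(z2 r hr).eq_of_nhds, abs_zero]; exact le_trans zero_le_one (le_max_left _ _)
  · by_cases hr : r ∈ Icc (0:ℝ) 1
    · exact (h3 r hr).trans ((le_max_right _ _).trans ((le_max_right _ _).trans
        (le_max_right _ _)))
    · rw [(z3 r hr).eq_of_nhds, abs_zero]; exact le_trans zero_le_one (le_max_left _ _)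

/-- bound of the derivatives of the cut-off up to order three -/
noncomputable def bcb : ℝ := exists_cb_bound.choose

lemma one_le_bcb : 1 ≤ bcb := exists_cb_bound.choose_spec.1

/-- the cut-off composed with a function of size `cs` -/
lemma sz_cb {E : Type*} [NormedAddCommGroup E] [NormedSpace ℝ E] {ρ cs : ℝ} {s : E → ℝ} {Y : E}
    (hρ : 0 < ρ) (hcs : 1 ≤ cs) (hs : Sz 3 ρ cs s Y) :
    Sz 3 ρ (8 * cs ^ 3 * bcb) (fun y => cb (s y)) Y := by
  obtain ⟨h0, h1, h2, h3⟩ := exists_cb_bound.choose_spec.2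
  have hc1 : ContDiff ℝ ∞ (deriv cb) := (contDiff_infty_iff_deriv.1 contDiff_cb).2
  have hc2 : ContDiff ℝ ∞ (deriv (deriv cb)) := (contDiff_infty_iff_deriv.1 hc1).2
  have hc3 : ContDiff ℝ ∞ (deriv (deriv (deriv cb))) := (contDiff_infty_iff_deriv.1 hc2).2
  exact sz_comp hρ hcs (fun r => (contDiff_cb.differentiable (by simp) r).hasDerivAt)
    (fun r => (hc1.differentiable (by simp) r).hasDerivAt)
    (fun r => (hc2.differentiable (by simp) r).hasDerivAt) contDiff_cb hc1 hc2 hc3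
    (by linarith [one_le_bcb]) h0 h1 h2 h3 hs

end Vale.Agent.P214.ODET
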