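import Vale.Agent.P214.ODET.Sizes

/-!
# P214, block ODET: the divergence defect of the base field at scale `t`

`tauF = div beT - m`; on `|ft| ≤ t`, `‖Dw‖ ≤ κt ≤ 1/8`: `|D^j tauF| t^j ≤ C (κt)²` for `j ≤ 2`.
-/

open Set Filter Topology MeasureTheory Metric
open scoped RealInnerProductSpace ContDiff

set_option linter.all false

namespace Vale.Agent.P214.ODET

open FV FM ODEF

variable {E : Type*} [NormedAddCommGroup E] [InnerProductSpace ℝ E] [FiniteDimensional ℝ E]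
variable {T : Submodule ℝ E} {w : E → E} {ε κ h₁ t : ℝ} {z Y : E}

lemma sz_A' (hw : Ref T w ε κ) (ht : 0 ≤ t) (hκ : κ * t ≤ 1) (hA : ‖fderiv ℝ w Y‖ ≤ κ * t) :
    Sz 5 t (κ * t) (fderiv ℝ w) Y := by
  refine ⟨hw.smooth1, fun j hj => ?_⟩
  rcases j with _ | j
  · simpa using hA
  · rw [norm_iteratedFDeriv_fderiv]
    have h1 := hw.bound (j + 1 + 1) (by omega) (by omega) Y
    have hk := hw.knn
    calc ‖iteratedFDeriv ℝ (j + 1 + 1) w Y‖ * t ^ (j + 1)
        ≤ κ ^ (j + 1 + 1 - 1) * t ^ (j + 1) := by gcongr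
      _ = (κ * t) ^ (j + 1) := by rw [mul_pow]; rfl
      _ ≤ κ * t := pow_le_of_le_one (by positivity) hκ (by omega)

lemma sz_Gi_step' (H : Adm T w ε κ h₁) (ht : 0 < t) (hκ : κ * t ≤ 1)
    (hA : ‖fderiv ℝ w Y‖ ≤ κ * t) {k : ℕ} (hk : k ≤ 4) {c : ℝ}
    (hG : Sz k t c (fun y => Gi (fderiv ℝ w y)) Y) (v : E) :
    Sz k t (2 ^ k * ((2 ^ k * (c * (2 ^ k * ((κ * t) * (κ * ‖v‖))
        + 2 ^ k * ((κ * ‖v‖) * (κ * t))))) * c))
      (fun y => fderiv ℝ (fun y => Gi (fderiv ℝ w y)) y v) Y := by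
  have hw := H.ref
  have a1 := ((sz_adj ht.le (sz_A' hw ht.le hκ hA)).of_le (hk.trans (by norm_num))).comp' ht.le
    ((sz_D2v (Y := Y) hw ht.le hκ v).of_le hk)
  have a2 := ((sz_adjD2v (Y := Y) hw ht.le hκ v).of_le hk).comp' ht.le
    ((sz_A' hw ht.le hκ hA).of_le (hk.trans (by norm_num)))
  have a3 := (hG.comp' ht.le (a1.add ht.le a2)).comp' ht.le hG
  exact a3.neg.congr (fderiv_Gi_apply H v).symm

lemma sz_Gi' (H : Adm T w ε κ h₁) (ht : 0 < t) (hκ : κ * t ≤ 1 / 8)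
    (hA : ‖fderiv ℝ w Y‖ ≤ κ * t) : Sz 3 t 2 (fun y => Gi (fderiv ℝ w y)) Y := by
  have hw := H.ref
  have hk := hw.knn
  have hκ' : κ * t ≤ 1 := hκ.trans (by norm_num)
  have hx : (κ * t) * (κ * t) ≤ 1 / 64 := by
    have : 0 ≤ κ * t := by positivity
    nlinarith
  have h0 : Sz 0 t 1 (fun y => Gi (fderiv ℝ w y)) Y := by
    refine ⟨contDiff_Gi hw, fun j hj => ?_⟩
    have : j = 0 := by omega
    subst this
    simpa using norm_Gi_le (fderiv ℝ w Y)
  have h1 : Sz 1 t 1 (fun y => Gi (fderiv ℝ w y)) Y := by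
    refine Sz.of_fderiv_apply ht (c' := 2 * ((κ * t) * κ)) (by positivity) (contDiff_Gi hw)
      (norm_Gi_le (fderiv ℝ w Y)) (fun v => ?_) (by nlinarith)
    refine (sz_Gi_step' H ht hκ' hA (by norm_num) h0 v).mono (le_of_eq ?_)
    ring
  have h2 : Sz 2 t 1 (fun y => Gi (fderiv ℝ w y)) Y := by
    refine Sz.of_fderiv_apply ht (c' := 16 * ((κ * t) * κ)) (by positivity) (contDiff_Gi hw)
      (norm_Gi_le (fderiv ℝ w Y)) (fun v => ?_) (by nlinarith)
    refine (sz_Gi_step' H ht hκ' hA (by norm_num) h1 v).mono (le_of_eq ?_)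
    ring
  refine Sz.of_fderiv_apply ht (c' := 128 * ((κ * t) * κ)) (by positivity) (contDiff_Gi hw)
    ((norm_Gi_le (fderiv ℝ w Y)).trans (by norm_num)) (fun v => ?_) (by nlinarith)
  refine (sz_Gi_step' H ht hκ' hA (by norm_num) h2 v).mono (le_of_eq ?_)
  ring

/-- `A^* A gm` -/
noncomputable def agF (T : Submodule ℝ E) (w : E → E) (z y : E) : E :=
  adj (fderiv ℝ w y) (fderiv ℝ w y (gmF T w z y))

/-- the regularised denominator -/
noncomputable def SF (T : Submodule ℝ E) (w : E → E) (z : E) (t : ℝ) (y : E) : ℝ :=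
  (t ^ 2)⁻¹ * ⟪ft T w z y, gmF T w z y⟫ + (1 - cb (4 * (‖ft T w z y‖ ^ 2 / t ^ 2)))

/-- `vpm⁻¹ - 1`, regularised -/
noncomputable def qF (T : Submodule ℝ E) (w : E → E) (z : E) (t : ℝ) (y : E) : ℝ :=
  ((t ^ 2)⁻¹ * ⟪ft T w z y, agF T w z y⟫) * (SF T w z t y)⁻¹

/-- `beF - ft`, regularised -/
noncomputable def eF (T : Submodule ℝ E) (w : E → E) (z : E) (t : ℝ) (y : E) : E :=
  qF T w z t y • gmF T w z y - agF T w z y

/-- `beT - ft` -/
noncomputable def dF (T : Submodule ℝ E) (w : E → E) (z : E) (t : ℝ) (y : E) : E :=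
  cb (‖ft T w z y‖ ^ 2 / t ^ 2) • eF T w z t y

/-- constants -/
noncomputable def cS : ℝ := 129 + 262144 * bcb
noncomputable def cI : ℝ := iC cS 66
noncomputable def cE : ℝ := 8 * (8 * (8192 * cI) * 16) + 1024
noncomputable def cD : ℝ := 8 * (4096 * bcb * cE)
/-- the constant of the defect -/
noncomputable def cTau (n : ℕ) : ℝ := n * (512 * (1 + cD) + 4 * cD)

lemma cS_nonneg : 0 ≤ cS := by have := one_le_bcb; unfold cS; linarith
lemma cI_nonneg : 0 ≤ cI := iC_nonneg cS_nonneg (by norm_num)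
lemma cE_nonneg : 0 ≤ cE := by have := cI_nonneg; unfold cE; positivity
lemma cD_nonneg : 0 ≤ cD := by have := cE_nonneg; have := one_le_bcb; unfold cD; positivity
lemma cTau_nonneg (n : ℕ) : 0 ≤ cTau n := by have := cD_nonneg; unfold cTau; positivity

section glob

variable (H : Adm T w ε κ h₁)
include H

lemma inner_ft_gm_ge (z Y : E) :
    63 / 64 * ‖ft T w z Y‖ ^ 2 ≤ ⟪ft T w z Y, gmF T w z Y⟫ := by
  have h1 := norm_sq_ft_sub_PS H z Y
  have h2 := norm_n_le H (Y := Y) z ((H.ref.slope Y).trans (eps_le H))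
  have h3 : ‖ft T w z Y - PS T w Y (ft T w z Y)‖ ^ 2 ≤ (1 / 16 * ‖ft T w z Y‖) ^ 2 := by
    gcongr
  have h4 : ⟪cRm T w z Y, gmF T w z Y⟫ = ⟪ft T w z Y, gmF T w z Y⟫ := rfl
  rw [h4] at h1
  nlinarith [sq_nonneg ‖ft T w z Y‖]

lemma SF_ge (ht : 0 < t) (z Y : E) : 1 / 66 ≤ SF T w z t Y := by
  have h1 := inner_ft_gm_ge H z Y
  set s := ‖ft T w z Y‖ ^ 2 / t ^ 2 with hs
  have hs0 : 0 ≤ s := by positivity
  have h2 : 63 / 64 * s ≤ (t ^ 2)⁻¹ * ⟪ft T w z Y, gmF T w z Y⟫ := by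
    have : 63 / 64 * s = (t ^ 2)⁻¹ * (63 / 64 * ‖ft T w z Y‖ ^ 2) := by
      rw [hs]; field_simp
    rw [this]
    gcongr
  have h3 := cb_nonneg (4 * s)
  have h4 := cb_le_one (4 * s)
  unfold SF
  rw [← hs]
  rcases le_or_gt s (1 / 64) with h5 | h5
  · rw [cb_zero (by linarith)]
    linarith
  · linarith

lemma SF_pos (ht : 0 < t) (z Y : E) : 0 < SF T w z t Y :=
  lt_of_lt_of_le (by norm_num) (SF_ge H ht z Y)

lemma beT_eq (ht : 0 < t) (z Y : E) : beT T w z t Y = ft T w z Y + dF T w z t Y := by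
  unfold beT dF
  congr 1
  rcases le_or_gt (‖ft T w z Y‖ ^ 2 / t ^ 2) (1 / 16) with hs | hs
  · rw [cb_zero hs, zero_smul, zero_smul]
  · congr 1
    have h0 : 0 < ‖ft T w z Y‖ ^ 2 := by
      by_contra h
      have h1 : ‖ft T w z Y‖ ^ 2 = 0 := le_antisymm (not_lt.1 h) (by positivity)
      rw [h1, zero_div] at hs
      norm_num at hs
    have h1 := inner_ft_gm_ge H z Y
    have h2 : 0 < ⟪ft T w z Y, gmF T w z Y⟫ := lt_of_lt_of_le (by positivity) h1
    have hG : ft T w z Y = gmF T w z Y + agF T w z Y := (G_gmF H z Y).symm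
    have hn : ‖ft T w z Y - PS T w Y (ft T w z Y)‖ ^ 2
        = ‖ft T w z Y‖ ^ 2 - ⟪ft T w z Y, gmF T w z Y⟫ := norm_sq_ft_sub_PS H z Y
    have ha : ⟪ft T w z Y, agF T w z Y⟫ = ‖ft T w z Y‖ ^ 2 - ⟪ft T w z Y, gmF T w z Y⟫ := by
      rw [← real_inner_self_eq_norm_sq, ← inner_sub_right]
      congr 1
      exact eq_sub_of_add_eq' hG.symm
    have hS : SF T w z t Y = (t ^ 2)⁻¹ * ⟪ft T w z Y, gmF T w z Y⟫ := by
      unfold SF
      rw [cb_one (by linarith), sub_self, add_zero]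
    have hv : (vpm T w z Y)⁻¹ - 1 = qF T w z t Y := by
      unfold vpm qF
      rw [hn, ha, hS]
      generalize ‖ft T w z Y‖ ^ 2 = N at h0 ⊢
      generalize ⟪ft T w z Y, gmF T w z Y⟫ = S at h2 ⊢
      have e1 : 1 - (N - S) / N = S / N := by field_simp; ring
      rw [e1]
      field_simp
    unfold eF beF
    rw [← hv, sub_smul, one_smul, sub_sub, ← hG]

end glob

section sizes

variable (H : Adm T w ε κ h₁) (ht : 0 < t) (hκ : κ * t ≤ 1 / 8)
  (hr : ‖ft T w z Y‖ ≤ t) (hA : ‖fderiv ℝ w Y‖ ≤ κ * t)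
include H ht hκ hr hA

omit H hκ hA in
lemma sz_ft : Sz 3 t t (ft T w z) Y := sz_bxF 2 ht.le hr

lemma sz_gm : Sz 3 t (16 * t) (gmF T w z) Y :=
  ((sz_Gi' H ht hκ hA).apply ht.le (sz_ft (w := w) ht hr)).mono (le_of_eq (by ring))

lemma sz_ag : Sz 3 t (1024 * (κ * t) ^ 2 * t) (agF T w z) Y := by
  have a1 := (sz_A' H.ref ht.le (hκ.trans (by norm_num)) hA).of_le (by norm_num : 3 ≤ 5)
  have a2 := (a1.apply ht.le (sz_gm H ht hκ hr hA))
  exact ((sz_adj ht.le a1).apply ht.le a2).mono (le_of_eq (by ring))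

omit H hκ hA in
lemma sz_s : Sz 3 t 8 (fun y => ‖ft T w z y‖ ^ 2 / t ^ 2) Y := by
  have a1 := ((sz_ft (w := w) ht hr).inner ht.le (sz_ft (w := w) ht hr)).const_mul' ht.le
    ((t ^ 2)⁻¹)
  refine (a1.mono (c' := 8) (le_of_eq ?_)).congr ?_
  · rw [abs_of_pos (by positivity)]
    field_simp
    norm_num
  · funext y
    rw [real_inner_self_eq_norm_sq, div_eq_mul_inv, mul_comm]

omit H hκ hA in
lemma sz_eta : Sz 3 t (4096 * bcb) (fun y => cb (‖ft T w z y‖ ^ 2 / t ^ 2)) Y :=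
  (sz_cb ht (by norm_num) (sz_s (w := w) ht hr)).mono (le_of_eq (by norm_num))

omit H hκ hA in
lemma sz_eta4 : Sz 3 t (262144 * bcb) (fun y => cb (4 * (‖ft T w z y‖ ^ 2 / t ^ 2))) Y := by
  have a1 := (sz_s (w := w) ht hr).const_mul' ht.le 4
  exact (sz_cb ht (by norm_num) a1).mono (le_of_eq (by norm_num))

lemma sz_SF : Sz 3 t cS (SF T w z t) Y := by
  have a1 := ((sz_ft (w := w) ht hr).inner ht.le (sz_gm H ht hκ hr hA)).const_mul' ht.le
    ((t ^ 2)⁻¹)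
  have a2 : Sz 3 t 1 (fun _ : E => (1:ℝ)) Y := Sz.const ht.le _ (by norm_num)
  refine (a1.add ht.le (a2.sub ht.le (sz_eta4 (w := w) ht hr))).mono (le_of_eq ?_)
  rw [abs_of_pos (by positivity)]
  unfold cS
  field_simp
  ring

lemma sz_SF_inv : Sz 3 t cI (fun y => (SF T w z t y)⁻¹) Y := by
  refine sz_inv ht (sz_SF H ht hκ hr hA) (fun y => SF_pos H ht z y) ?_
  rw [inv_le_comm₀ (SF_pos H ht z Y) (by norm_num)]
  have := SF_ge H ht z Y
  linarith

lemma sz_qF : Sz 3 t (8 * (8192 * (κ * t) ^ 2 * cI)) (qF T w z t) Y := by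
  have a1 := ((sz_ft (w := w) ht hr).inner ht.le (sz_ag H ht hκ hr hA)).const_mul' ht.le
    ((t ^ 2)⁻¹)
  refine (a1.mul ht.le (sz_SF_inv H ht hκ hr hA)).mono (le_of_eq ?_)
  rw [abs_of_pos (by positivity)]
  field_simp
  ring

lemma sz_eF : Sz 3 t (cE * ((κ * t) ^ 2 * t)) (eF T w z t) Y := by
  refine (((sz_qF H ht hκ hr hA).smul' ht.le (sz_gm H ht hκ hr hA)).sub ht.le
    (sz_ag H ht hκ hr hA)).mono (le_of_eq ?_)
  unfold cE
  ring

lemma sz_dF : Sz 3 t (cD * ((κ * t) ^ 2 * t)) (dF T w z t) Y := by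
  refine ((sz_eta (w := w) ht hr).smul' ht.le (sz_eF H ht hκ hr hA)).mono (le_of_eq ?_)
  unfold cD
  ring

end sizes

/-! ### the defect -/

/-- the divergence defect of the base field at scale `t` -/
noncomputable def tauF (m : ℕ) (T : Submodule ℝ E) (w : E → E) (z : E) (t : ℝ) (Y : E) : ℝ :=
  divg w Y (beT T w z t Y) (fderiv ℝ (beT T w z t) Y) - m

/-- the defect as a sum over an orthonormal basis -/
noncomputable def tauS (T : Submodule ℝ E) (w : E → E) (z : E) (t : ℝ) (Y : E) : ℝ :=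
  ∑ i, (⟪stdOrthonormalBasis ℝ E i, fderiv ℝ (dF T w z t) Y (stdOrthonormalBasis ℝ E i)⟫
    + ⟪stdOrthonormalBasis ℝ E i, Gi (fderiv ℝ w Y) (adj (fderiv ℝ w Y)
      (D2 w Y (ft T w z Y + dF T w z t Y) (stdOrthonormalBasis ℝ E i)))⟫)

lemma sz_sum {ι F : Type*} [NormedAddCommGroup F] [NormedSpace ℝ F] {k : ℕ} {ρ c : ℝ}
    (hρ : 0 ≤ ρ) (s : Finset ι) {f : ι → E → F} (hf : ∀ i, Sz k ρ c (f i) Y) :
    Sz k ρ (s.card * c) (fun y => ∑ i ∈ s, f i y) Y := by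
  classical
  induction s using Finset.induction_on with
  | empty =>
    simp only [Finset.sum_empty, Finset.card_empty, Nat.cast_zero, zero_mul]
    exact Sz.const hρ _ (by simp)
  | insert a s ha ih =>
    have h1 := (hf a).add hρ ih
    have h2 : (fun y => ∑ i ∈ insert a s, f i y) = fun y => f a y + ∑ i ∈ s, f i y := by
      funext y; rw [Finset.sum_insert ha]
    rw [h2]
    refine h1.mono (le_of_eq ?_)
    rw [Finset.card_insert_of_notMem ha]
    push_cast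
    ring

section defect

variable (H : Adm T w ε κ h₁) (ht : 0 < t) (hκ : κ * t ≤ 1 / 8)
  (hr : ‖ft T w z Y‖ ≤ t) (hA : ‖fderiv ℝ w Y‖ ≤ κ * t)
include H ht

lemma contDiff_SF (z : E) : ContDiff ℝ ∞ (SF T w z t) := by
  have h1 : ContDiff ℝ ∞ (ft T w z) := contDiff_bxF T z
  have h2 : ContDiff ℝ ∞ (gmF T w z) := (contDiff_Gi H.ref).clm_apply h1
  refine (contDiff_const.mul (h1.inner ℝ h2)).add (contDiff_const.sub (contDiff_cb.comp ?_))
  exact contDiff_const.mul ((h1.norm_sq ℝ).div_const _)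

lemma contDiff_dF (z : E) : ContDiff ℝ ∞ (dF T w z t) := by
  have h1 : ContDiff ℝ ∞ (ft T w z) := contDiff_bxF T z
  have h2 : ContDiff ℝ ∞ (gmF T w z) := (contDiff_Gi H.ref).clm_apply h1
  have h3 : ContDiff ℝ ∞ (agF T w z) :=
    (contDiff_adjA H.ref).clm_apply (H.ref.smooth1.clm_apply h2)
  have h4 : ContDiff ℝ ∞ (qF T w z t) :=
    (contDiff_const.mul (h1.inner ℝ h3)).mul
      ((contDiff_SF H ht z).inv fun y => (SF_pos H ht z y).ne')
  have h5 : ContDiff ℝ ∞ (eF T w z t) := (h4.smul h2).sub h3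
  exact (contDiff_cb.comp ((h1.norm_sq ℝ).div_const _)).smul h5

lemma tauF_eq (z Y : E) : tauF (Module.finrank ℝ T) T w z t Y = tauS T w z t Y := by
  have h0 : beT T w z t = fun y => ft T w z y + dF T w z t y := by
    funext y; exact beT_eq H ht z y
  have h1 : HasFDerivAt (beT T w z t) (T.starProjection + fderiv ℝ (dF T w z t) Y) Y := by
    rw [h0]
    exact (hasFDerivAt_ft H z Y).add
      (((contDiff_dF H ht z).differentiable (by simp)) Y).hasFDerivAt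
  unfold tauF divg
  rw [h1.fderiv, tr_add, tr_starProjection, h0]
  unfold tauS
  rw [Finset.sum_add_distrib, tr_eq_sum (stdOrthonormalBasis ℝ E) (fderiv ℝ (dF T w z t) Y),
    tr_eq_sum (stdOrthonormalBasis ℝ E)]
  have h2 : ∀ a b c : ℝ, a + b + c - a = b + c := fun a b c => by ring
  exact h2 _ _ _

include hκ hr hA

lemma sz_tau : Sz 2 t (cTau (Module.finrank ℝ E) * (κ * t) ^ 2)
    (tauF (Module.finrank ℝ T) T w z t) Y := by
  have hw := H.ref
  have hk := hw.knn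
  have hD := cD_nonneg
  have hκ' : κ * t ≤ 1 := hκ.trans (by norm_num)
  have hx0 : 0 ≤ κ * t := by positivity
  have hx : (κ * t) ^ 2 ≤ 1 := pow_le_one₀ hx0 hκ'
  have hd := sz_dF H ht hκ hr hA
  have hf := sz_ft (w := w) ht hr
  have hbe : Sz 3 t ((1 + cD) * t) (fun y => ft T w z y + dF T w z t y) Y := by
    refine (hf.add ht.le hd).mono ?_
    have : cD * ((κ * t) ^ 2 * t) ≤ cD * (1 * t) := by gcongr
    linarith
  have hdd := hd.fderiv ht
  have h1 : tauF (Module.finrank ℝ T) T w z t = tauS T w z t := by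
    funext y; exact tauF_eq H ht z y
  rw [h1]
  have key : ∀ i, Sz 2 t ((512 * (1 + cD) + 4 * cD) * (κ * t) ^ 2) (fun Y =>
      ⟪stdOrthonormalBasis ℝ E i, fderiv ℝ (dF T w z t) Y (stdOrthonormalBasis ℝ E i)⟫
      + ⟪stdOrthonormalBasis ℝ E i, Gi (fderiv ℝ w Y) (adj (fderiv ℝ w Y)
        (D2 w Y (ft T w z Y + dF T w z t Y) (stdOrthonormalBasis ℝ E i)))⟫) Y := by
    intro i
    have hb : ‖stdOrthonormalBasis ℝ E i‖ = 1 := (stdOrthonormalBasis ℝ E).norm_eq_one i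
    have c1 : Sz 2 t 1 (fun _ : E => stdOrthonormalBasis ℝ E i) Y := Sz.const ht.le _ hb.le
    have a1 := c1.inner ht.le (hdd.eval ht.le (stdOrthonormalBasis ℝ E i))
    have b1 := ((sz_D2 (Y := Y) hw ht.le hκ').of_le (by norm_num : 2 ≤ 4)).apply ht.le
      (hbe.of_le (by norm_num : 2 ≤ 3))
    have b2 := b1.eval ht.le (stdOrthonormalBasis ℝ E i)
    have b3 := ((sz_adj ht.le (sz_A' hw ht.le hκ' hA)).of_le (by norm_num : 2 ≤ 5)).apply ht.le b2
    have b4 := ((sz_Gi' H ht hκ hA).of_le (by norm_num : 2 ≤ 3)).apply ht.le b3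
    have b5 := c1.inner ht.le b4
    refine (a1.add ht.le b5).mono (le_of_eq ?_)
    rw [hb]
    field_simp
    ring
  refine (sz_sum ht.le Finset.univ key).mono (le_of_eq ?_)
  rw [Finset.card_univ, Fintype.card_fin]
  unfold cTau
  ring

end defect

end Vale.Agent.P214.ODET
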