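import Vale.Agent.P214.ODET.C11
import Vale.Agent.P214.FM.Real
import Vale.Agent.P214.FM.Bridge
import Vale.Agent.P214.LOCF.Props

/-!
# P214, block ODET: the test functions of the curved ODE

On `|bx| ≤ t` with `‖Dw‖ ≤ κt ≤ 1/8` there: `tau` is `C^{1,1}` of size `cTau (κt)²` at scale `t`;
`K(|bx|²/t²)` and `K(|bx|²/t²)(c (κt)² - tau)` are nonnegative test functions of class `Test3`.
-/

open Set Filter Topology MeasureTheory Metric
open scoped RealInnerProductSpace ContDiff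

set_option linter.all false

namespace Vale.Agent.P214.ODET

open FV FM ODE ODEF

variable {E : Type*} [NormedAddCommGroup E] [InnerProductSpace ℝ E] [FiniteDimensional ℝ E]
  [MeasurableSpace E] [BorelSpace E]
variable {T : Submodule ℝ E} {w : E → E} {ε κ h₁ : ℝ} {z Y : E} {m : ℕ} {G : Set E}
  {k k' K : ℝ → ℝ} {B t c M : ℝ}

/-- a nonnegative `C^{1,1}` function with bounds `a, a/t, a/t²`, vanishing outside the ball, is a
test function after division by any `M ≥ a` -/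
lemma test3_of {f : E → ℝ} {a : ℝ} (hbd : Bd2 univ a (a / t) (a / t ^ 2) f) (ha : 0 ≤ a)
    (ht : 0 < t) (hbase : ∀ x, f (T.starProjection x) = f x) (h0 : ∀ x, 0 ≤ f x)
    (hz : ∀ x, t ≤ ‖XX T w z x‖ → f x = 0) (hM0 : 0 < M) (hM : a ≤ M) :
    LOCF.Test3 T w (T.starProjection z) t (fun x => M⁻¹ * f x) := by
  have h3 := hbd.const_mul (r := M⁻¹) (by positivity)
  have hMa : M⁻¹ * a ≤ 1 := by
    calc M⁻¹ * a ≤ M⁻¹ * M := by gcongr
      _ = 1 := inv_mul_cancel₀ hM0.ne'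
  have hout : ∀ x, t ≤ ‖XX T w z x‖ → M⁻¹ * f x = 0 := fun x hx => by rw [hz x hx, mul_zero]
  have hXX : ∀ x, XX T w (T.starProjection z) x = XX T w z x := by
    intro x
    unfold XX bx
    rw [map_sub, map_sub, star_self]
  refine ⟨⟨h3.contDiff, fun x => ?_, fun x => ?_, fun x => ?_, fun x y => ?_, fun x hx => ?_⟩,
    fun x => ?_, fun x hx => hout x (by rwa [hXX] at hx)⟩
  · show M⁻¹ * f (T.starProjection x) = M⁻¹ * f x
    rw [hbase]
  · exact (h3.b0 x (mem_univ x)).trans hMa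
  · refine (h3.b1 x (mem_univ x)).trans ?_
    calc M⁻¹ * (a / t) = (M⁻¹ * a) * t⁻¹ := by rw [div_eq_mul_inv]; ring
      _ ≤ 1 * t⁻¹ := by gcongr
      _ = t⁻¹ := one_mul _
  · refine (h3.b2 x (mem_univ x) y (mem_univ y)).trans ?_
    gcongr
    calc M⁻¹ * (a / t ^ 2) = (M⁻¹ * a) * (t ^ 2)⁻¹ := by rw [div_eq_mul_inv]; ring
      _ ≤ 1 * (t ^ 2)⁻¹ := by gcongr
      _ = (t ^ 2)⁻¹ := one_mul _
  · refine hout x (hx.trans (le_of_eq ?_))
    have h4 : T.starProjection x - T.starProjection z = XX T w z x := by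
      unfold XX bx; rw [map_sub]
    rw [h4]
  · have := h0 x
    positivity

/-- **the kernel of the distance as a test function** -/
theorem test3_kernel (T : Submodule ℝ E) (w : E → E) (z : E) (hk : Kern k k' K)
    (hB : ∀ s, 0 ≤ s → |K s| ≤ B ∧ |k s| ≤ B ∧ |k' s| ≤ B)
    (hB0 : 0 ≤ B) (ht : 0 < t) (hM0 : 0 < M) (hM : 3 * B ≤ M) :
    LOCF.Test3 T w (T.starProjection z) t (fun x => M⁻¹ * K (aX T w z x / t ^ 2)) := by
  obtain ⟨h1, h2⟩ := bd2_kernel T w z hk.pK.der hk.pk.der hk.pK.zero hk.pk.zero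
    (fun s hs => hk.pk.zero' hs) hB hB0 ht
  have hbd : Bd2 univ (3 * B) (3 * B / t) (3 * B / t ^ 2)
      (fun y => K (‖ft T w z y‖ ^ 2 / t ^ 2)) :=
    h1.mono (subset_univ _) (by linarith) (by gcongr; linarith) le_rfl
  refine test3_of hbd (by positivity) ht (fun x => ?_) (fun x => hk.K_nonneg _)
    (fun x hx => (h2 x hx).1) hM0 hM
  show K (‖ft T w z (T.starProjection x)‖ ^ 2 / t ^ 2) = K (‖ft T w z x‖ ^ 2 / t ^ 2)
  have : ft T w z (T.starProjection x) = ft T w z x := by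
    unfold ft; rw [map_sub, map_sub, star_self]
  rw [this]

section

variable (H : Adm T w ε κ h₁)
include H

lemma tau_eq_tauF (hT : Module.finrank ℝ T = m) (z : E) (t : ℝ) :
    tau m T w z t = tauF (Module.finrank ℝ T) T w z t := by
  funext Y
  unfold tau tauF
  rw [H.be_eq_beT' z t, ← hT]

variable (hT : Module.finrank ℝ T = m) (ht : 0 < t) (hκ : κ * t ≤ 1 / 8)
  (hA : ∀ Y, ‖bx T z Y‖ ≤ t → ‖fderiv ℝ w Y‖ ≤ κ * t)
include hT ht hκ hA

/-- **bounds of the defect** -/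
theorem bd2_tau : Bd2 (bset T z t) (cTau (Module.finrank ℝ E) * (κ * t) ^ 2)
    (cTau (Module.finrank ℝ E) * (κ * t) ^ 2 / t)
    (cTau (Module.finrank ℝ E) * (κ * t) ^ 2 / t ^ 2) (tau m T w z t) := by
  rw [tau_eq_tauF H hT]
  exact bd2_of_sz (convex_bset T z t) ht fun Y hY => sz_tau H ht hκ hY (hA Y hY)

lemma contDiff_tau : ContDiff ℝ ∞ (tau m T w z t) := by
  rw [tau_eq_tauF H hT]
  have h0 : ‖bx T z z‖ ≤ t := by unfold bx; simp; exact ht.le
  exact (sz_tau (z := z) (Y := z) H ht hκ h0 (hA z h0)).smooth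

/-- `|tau| ≤ C (κt)²`, without minimality -/
theorem abs_tau_le (hY : ‖bx T z Y‖ ≤ t) :
    |tau m T w z t Y| ≤ cTau (Module.finrank ℝ E) * (κ * t) ^ 2 :=
  (bd2_tau H hT ht hκ hA).b0 Y hY

/-- **the test function of the defect** -/
theorem test3_phi (hk : Kern k k' K) (hB : ∀ s, 0 ≤ s → |K s| ≤ B ∧ |k s| ≤ B ∧ |k' s| ≤ B)
    (hB0 : 0 ≤ B) (hc : 0 ≤ c)
    (hτ : ∀ Y, ‖bx T z Y‖ ≤ t → |tau m T w z t Y| ≤ c * (κ * t) ^ 2) (hM0 : 0 < M)
    (hM : 6 * (B * ((c + cTau (Module.finrank ℝ E)) * (κ * t) ^ 2)) ≤ M) :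
    LOCF.Test3 T w (T.starProjection z) t (fun x => M⁻¹ * (K (aX T w z x / t ^ 2) *
      (c * (κ * t) ^ 2 - tau m T w z t x))) := by
  have hC := cTau_nonneg (Module.finrank ℝ E)
  obtain ⟨h1, h2⟩ := bd2_kernel T w z hk.pK.der hk.pk.der hk.pK.zero hk.pk.zero
    (fun s hs => hk.pk.zero' hs) hB hB0 ht
  have h3 := bd2_tau H hT ht hκ hA
  set C := cTau (Module.finrank ℝ E) with hCdef
  set x := (κ * t) ^ 2 with hx
  have hx0 : 0 ≤ x := by positivity
  set q := (c + C) * x with hq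
  have hq0 : 0 ≤ q := by positivity
  have hCq : C * x ≤ q := by rw [hq]; nlinarith [mul_nonneg hc hx0]
  have hsm := contDiff_tau H hT ht hκ hA
  have h4 : Bd2 (bset T z t) q (q / t) (q / t ^ 2) (fun y => c * x - tau m T w z t y) := by
    have hd : ∀ y, fderiv ℝ (fun y => c * x - tau m T w z t y) y
        = -fderiv ℝ (tau m T w z t) y := fun y => by rw [fderiv_const_sub]
    refine ⟨fun y hy => (h3.diff y hy).const_sub _, fun y hy => ?_, fun y hy => ?_,
      fun y hy y' hy' => ?_⟩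
    · refine (abs_sub _ _).trans ?_
      rw [abs_of_nonneg (mul_nonneg hc hx0)]
      have := h3.b0 y hy
      rw [hq]
      linarith [add_mul c C x]
    · rw [hd, norm_neg]
      exact (h3.b1 y hy).trans (by gcongr)
    · rw [hd, hd, ← neg_sub', norm_neg]
      exact (h3.b2 y hy y' hy').trans (by gcongr)
  have h5 := (h1.mono (subset_univ (bset T z t)) le_rfl le_rfl le_rfl).mul h4
    (convex_bset T z t) hB0 hq0 (by positivity) (by positivity)
  have e1 : B * (q / t) + q * (B / t) = 2 * (B * q) / t := by ring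
  have e2 : B * (q / t ^ 2) + 2 * (B / t * (q / t)) + q * (3 * B / t ^ 2)
      = 6 * (B * q) / t ^ 2 := by field_simp; ring
  rw [e1, e2] at h5
  have hBq : 0 ≤ B * q := by positivity
  have h6 : Bd2 (bset T z t) (6 * (B * q)) (6 * (B * q) / t) (6 * (B * q) / t ^ 2)
      (fun y => K (‖ft T w z y‖ ^ 2 / t ^ 2) * (c * x - tau m T w z t y)) :=
    h5.mono subset_rfl (by linarith) (by gcongr; linarith) le_rfl
  have hzero : ∀ y, t ≤ ‖bxF T z y‖ →
      K (‖ft T w z y‖ ^ 2 / t ^ 2) * (c * x - tau m T w z t y) = 0 := by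
    intro y hy
    rw [(h2 y hy).1, zero_mul]
  have hglob := h6.global (by positivity) (by positivity) (by positivity) (fun y hy => by
    refine ⟨hzero y hy, ?_⟩
    have h7 := h2 y hy
    have h8 : DifferentiableAt ℝ (fun y => c * x - tau m T w z t y) y :=
      ((hsm.differentiable (by simp)) y).const_sub _
    refine (h7.2.mul h8.hasFDerivAt).congr_fderiv ?_
    rw [h7.1]; simp)
  have hbx : ∀ y, bx T z (T.starProjection y) = bx T z y := by
    intro y; unfold bx; rw [map_sub, map_sub, star_self]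
  refine test3_of hglob (by positivity) ht (fun y => ?_) (fun y => ?_) hzero hM0 hM
  · have g1 : ft T w z (T.starProjection y) = ft T w z y := hbx y
    show K (‖ft T w z (T.starProjection y)‖ ^ 2 / t ^ 2) * (c * x - tau m T w z t
      (T.starProjection y)) = K (‖ft T w z y‖ ^ 2 / t ^ 2) * (c * x - tau m T w z t y)
    rw [g1, H.ref.tau_base (eps_le H) z ht]
  · show 0 ≤ K (‖ft T w z y‖ ^ 2 / t ^ 2) * (c * x - tau m T w z t y)
    rcases le_or_gt t ‖bxF T z y‖ with hy | hy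
    · rw [hzero y hy]
    · refine mul_nonneg (hk.K_nonneg _) ?_
      have := (abs_le.1 (hτ y hy.le)).2
      linarith

/-- the test function of the defect with the constant `cTau`, without minimality -/
theorem test3_phi' (hk : Kern k k' K) (hB : ∀ s, 0 ≤ s → |K s| ≤ B ∧ |k s| ≤ B ∧ |k' s| ≤ B)
    (hB0 : 0 ≤ B) (hM0 : 0 < M) (hM : 12 * (B * (cTau (Module.finrank ℝ E) * (κ * t) ^ 2)) ≤ M) :
    LOCF.Test3 T w (T.starProjection z) t (fun x => M⁻¹ * (K (aX T w z x / t ^ 2) *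
      (cTau (Module.finrank ℝ E) * (κ * t) ^ 2 - tau m T w z t x))) :=
  test3_phi H hT ht hκ hA hk hB hB0 (cTau_nonneg _) (fun Y hY => abs_tau_le H hT ht hκ hA hY) hM0
    (le_trans (le_of_eq (by ring)) hM)

omit hA in
/-- on a minimal graph, flat at scale `t`: `|tau| ≤ cBe (κt)²` -/
theorem abs_tau_le_cBe (hκ' : κ * t ≤ eps0) (hmin : MinimalOver T w G) (hG : BallIn T G z t)
    (hY : ‖bx T z Y‖ ≤ t) (hAt : ‖fderiv ℝ w Y‖ ≤ κ * t)
    (hpt : t / 4 ≤ ‖bx T z Y‖ → ‖fderiv ℝ w Y‖ ≤ κ * ‖bx T z Y‖) :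
    |tau m T w z t Y| ≤ cBe (Module.finrank ℝ E) m * (κ * t) ^ 2 := by
  obtain ⟨b, hb, -, h3⟩ := exists_hasFDerivAt_beT H ht hκ' hY hAt hpt
  have h4 : lap w (PS T w Y) Y = 0 := by
    refine hmin Y (hG _ (Submodule.starProjection_apply_mem T Y) ?_)
    have h1 : T.starProjection Y - T.starProjection z = bx T z Y := by
      unfold bx; rw [map_sub]
    rw [h1]; exact hY
  have h5 := h3 h4
  rw [tau_eq_tauF H hT]
  unfold tauF
  rw [hb.fderiv, ← hT]
  exact h5

end

end Vale.Agent.P214.ODET
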