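import Vale.Agent.P214.ODET.Grad
import Vale.Agent.P214.ODEF.Vp

/-!
# P214, block ODET: the normalised gradient field of the base distance

`vpm = 1 - |ft - PS ft|²/|ft|²`, `beF = vpm⁻¹ gmF` (away from the fibre over the centre),
`beT t = ft + cb(|ft|²/t²)(beF - ft)`; bounds `1 - vpm ≤ |Dw|²`, `|D beT - p| ≤ 4 κt`,
`|divg beT - m| ≤ C (κt)²`.
-/

open Set Filter Topology MeasureTheory Metric
open scoped RealInnerProductSpace ContDiff

set_option linter.all false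

namespace Vale.Agent.P214.ODET

open FV FM ODEF

variable {E : Type*} [NormedAddCommGroup E] [InnerProductSpace ℝ E] [FiniteDimensional ℝ E]

/-- squared cosine of the angle between base position and tangent plane -/
noncomputable def vpm (T : Submodule ℝ E) (w : E → E) (z Y : E) : ℝ :=
  1 - ‖ft T w z Y - PS T w Y (ft T w z Y)‖ ^ 2 / ‖ft T w z Y‖ ^ 2

/-- the normalised gradient field -/
noncomputable def beF (T : Submodule ℝ E) (w : E → E) (z Y : E) : E :=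
  (vpm T w z Y)⁻¹ • gmF T w z Y

/-- the cut-off -/
noncomputable def cb (s : ℝ) : ℝ := Real.smoothTransition ((16 * s - 1) / 3)

/-- the base field at scale `t` -/
noncomputable def beT (T : Submodule ℝ E) (w : E → E) (z : E) (t : ℝ) (Y : E) : E :=
  ft T w z Y + cb (‖ft T w z Y‖ ^ 2 / t ^ 2) • (beF T w z Y - ft T w z Y)

lemma cb_nonneg (s : ℝ) : 0 ≤ cb s := Real.smoothTransition.nonneg _

lemma cb_le_one (s : ℝ) : cb s ≤ 1 := Real.smoothTransition.le_one _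

lemma cb_zero {s : ℝ} (h : s ≤ 1 / 16) : cb s = 0 :=
  Real.smoothTransition.zero_of_nonpos (by linarith)

lemma cb_one {s : ℝ} (h : 1 / 4 ≤ s) : cb s = 1 :=
  Real.smoothTransition.one_of_one_le (by linarith)

lemma exists_hasDerivAt_cb (s : ℝ) : ∃ d : ℝ, HasDerivAt cb d s ∧ |d| ≤ 16 / 3 * cT := by
  have h1 : HasDerivAt (fun s : ℝ => (16 * s - 1) / 3) (16 / 3) s := by
    have := (((hasDerivAt_id s).const_mul 16).sub_const 1).div_const 3
    simpa using this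
  have h2 : HasDerivAt Real.smoothTransition (deriv Real.smoothTransition ((16 * s - 1) / 3))
      ((16 * s - 1) / 3) :=
    ((Real.smoothTransition.contDiff (n := 1)).differentiable (by simp) _).hasDerivAt
  refine ⟨_, h2.comp s h1, ?_⟩
  rw [abs_mul, abs_of_pos (by norm_num : (0:ℝ) < 16 / 3), mul_comm]
  gcongr
  exact abs_deriv_le_cT _

variable {T : Submodule ℝ E} {w : E → E} {ε κ h₁ : ℝ} {z Y : E}

section

variable (H : Adm T w ε κ h₁)
include H

lemma inner_ft (z Y v : E) : ⟪ft T w z Y, v + fderiv ℝ w Y v⟫ = ⟪cRm T w z Y, v⟫ := by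
  have h2 : ⟪ft T w z Y, fderiv ℝ w Y v⟫ = 0 := by
    rw [← star_ft H, inner_star, H.ref.star_fderiv, inner_zero_right]
  rw [inner_add_right, h2, add_zero]; rfl

/-- `|ft - PS ft|² = |ft|² - ⟨cR, gm⟩` -/
lemma norm_sq_ft_sub_PS (z Y : E) : ‖ft T w z Y - PS T w Y (ft T w z Y)‖ ^ 2
    = ‖ft T w z Y‖ ^ 2 - ⟪cRm T w z Y, gmF T w z Y⟫ := by
  have h1 : ⟪ft T w z Y, PS T w Y (ft T w z Y)⟫ = ⟪cRm T w z Y, gmF T w z Y⟫ := by
    rw [PS_ft H, inner_ft H z Y _]
  have h2 : ‖ft T w z Y‖ ^ 2 = ‖PS T w Y (ft T w z Y)‖ ^ 2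
      + ‖ft T w z Y - PS T w Y (ft T w z Y)‖ ^ 2 := by
    have := norm_sq_star_add_co (planeOf T w Y) (ft T w z Y)
    exact this
  have h3 : ⟪ft T w z Y, PS T w Y (ft T w z Y)⟫ = ‖PS T w Y (ft T w z Y)‖ ^ 2 :=
    inner_star_self (planeOf T w Y) _
  rw [← h1, h3, h2]; ring

lemma hasFDerivAt_ft (z Y : E) : HasFDerivAt (ft T w z) T.starProjection Y :=
  hasFDerivAt_cRm T w z Y

/-- derivative of `|ft|²` -/
lemma hasFDerivAt_norm_sq_ft (z Y : E) :
    HasFDerivAt (fun y => ‖ft T w z y‖ ^ 2) ((2:ℝ) • innerSL ℝ (cRm T w z Y)) Y := by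
  have h1 := (hasFDerivAt_ft H z Y).norm_sq
  refine h1.congr_fderiv ?_
  ext v
  have h2 : ⟪ft T w z Y, T.starProjection v⟫ = ⟪cRm T w z Y, v⟫ := by
    rw [← inner_star, star_ft H]; rfl
  show (2 • (innerSL ℝ (ft T w z Y)).comp T.starProjection) v
    = (2:ℝ) * ⟪cRm T w z Y, v⟫
  rw [← h2]
  simp

/-- derivative of the squared normal part -/
lemma hasFDerivAt_nsq (z Y : E) :
    HasFDerivAt (fun y => ‖ft T w z y - PS T w y (ft T w z y)‖ ^ 2)
      ((2:ℝ) • (innerSL ℝ (fderiv ℝ w Y (gmF T w z Y))).comp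
        (fderiv ℝ w Y + D2 w Y (gmF T w z Y))) Y := by
  have hw := H.ref
  have h0 : (fun y => ‖ft T w z y - PS T w y (ft T w z y)‖ ^ 2)
      = fun y => ‖ft T w z y‖ ^ 2 - ⟪cRm T w z y, gmF T w z y⟫ := by
    funext y; exact norm_sq_ft_sub_PS H z y
  rw [h0]
  have h1 := (hasFDerivAt_norm_sq_ft H z Y).sub
    ((hasFDerivAt_cRm T w z Y).inner ℝ (hasFDerivAt_gmF H z Y))
  refine h1.congr_fderiv ?_
  ext v
  set g := gmF T w z Y with hg
  set c := cRm T w z Y with hc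
  set A := fderiv ℝ w Y with hA
  have hgT : T.starProjection g = g := star_gmF H z Y
  have hcT : T.starProjection c = c := star_cRm H z Y
  have hGg : g + adj A (A g) = c := G_gmF H z Y
  have e1 : ⟪T.starProjection v, g⟫ = ⟪g, v⟫ := by
    rw [inner_star, hgT, real_inner_comm]
  have e2 : ⟪c, dgm T w z Y v⟫ = ⟪g, v⟫ - ⟪A g, D2 w Y g v⟫ - ⟪A g, D2 w Y g v⟫ := by
    have a1 : dgm T w z Y v = Gi A (T.starProjection v) - Gi A (Hw w Y (A g) v)
        - Gi A (adj A (D2 w Y g v)) := rfl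
    have a2 : Gi A c = g := rfl
    rw [a1, inner_sub_right, inner_sub_right, ← inner_Gi, ← inner_Gi, ← inner_Gi, a2,
      inner_adj_right, real_inner_comm (Hw w Y (A g) v) g, inner_Hw, hw.D2_symm Y v g,
      ← inner_star, hgT]
  have e3 : (((2:ℝ) • innerSL ℝ c) - (fderivInnerCLM ℝ (c, g)).comp
      (T.starProjection.prod (dgm T w z Y))) v
      = 2 * ⟪c, v⟫ - (⟪c, dgm T w z Y v⟫ + ⟪T.starProjection v, g⟫) := by
    simp
  have e4 : ((2:ℝ) • (innerSL ℝ (A g)).comp (A + D2 w Y g)) v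
      = 2 * (⟪A g, A v⟫ + ⟪A g, D2 w Y g v⟫) := by
    simp [inner_add_right]
    ring
  rw [e3, e4, e1, e2, ← hGg, inner_add_left, inner_adj_left]
  ring

lemma vpm_le_one (z Y : E) : vpm T w z Y ≤ 1 := by
  unfold vpm
  have : 0 ≤ ‖ft T w z Y - PS T w Y (ft T w z Y)‖ ^ 2 / ‖ft T w z Y‖ ^ 2 := by positivity
  linarith

lemma norm_n_le {a : ℝ} (z : E) (hA : ‖fderiv ℝ w Y‖ ≤ a) :
    ‖ft T w z Y - PS T w Y (ft T w z Y)‖ ≤ a * ‖ft T w z Y‖ := by
  have hw := H.ref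
  set x := ft T w z Y with hx
  have hxT : T.starProjection x = x := star_ft H z Y
  have h1 : PS T w Y (x + fderiv ℝ w Y x) = x + fderiv ℝ w Y x := by
    have := hw.PS_D0 Y x
    rw [hxT] at this
    have h2 : D0 w Y x = x + fderiv ℝ w Y x := by
      rw [D0_apply]
      have : adj (fderiv ℝ w Y) x = 0 := by rw [← hxT, hw.adj_fderiv_star]
      rw [this, sub_zero]
    rwa [h2] at this
  have h2 : x - PS T w Y x = -(fderiv ℝ w Y x - PS T w Y (fderiv ℝ w Y x)) := by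
    rw [map_add] at h1
    have h3 : PS T w Y x = x + fderiv ℝ w Y x - PS T w Y (fderiv ℝ w Y x) := by
      rw [← h1]; abel
    rw [h3]; abel
  rw [h2, norm_neg]
  calc ‖fderiv ℝ w Y x - PS T w Y (fderiv ℝ w Y x)‖ ≤ ‖fderiv ℝ w Y x‖ :=
        norm_co_le (planeOf T w Y) _
    _ ≤ ‖fderiv ℝ w Y‖ * ‖x‖ := (fderiv ℝ w Y).le_opNorm x
    _ ≤ a * ‖x‖ := by gcongr

lemma one_sub_vpm_le {a : ℝ} (z : E) (hA : ‖fderiv ℝ w Y‖ ≤ a) : 1 - vpm T w z Y ≤ a ^ 2 := by
  have ha : 0 ≤ a := (norm_nonneg _).trans hA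
  unfold vpm
  rw [sub_sub_cancel]
  rcases eq_or_lt_of_le (norm_nonneg (ft T w z Y)) with h0 | h0
  · rw [← h0]; simp; positivity
  · rw [div_le_iff₀ (by positivity)]
    calc _ ≤ (a * ‖ft T w z Y‖) ^ 2 := by gcongr; exact norm_n_le H z hA
      _ = _ := by ring

lemma vpm_ge (z Y : E) : 63 / 64 ≤ vpm T w z Y := by
  have h1 := one_sub_vpm_le H (Y := Y) z (H.ref.slope Y)
  have h2 := eps_le H
  have h3 := H.ref.eps_nonneg
  have h4 : ε ^ 2 ≤ (1 / 16) ^ 2 := by gcongr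
  linarith

lemma half_le_vpm (z Y : E) : 1 / 2 ≤ vpm T w z Y := by
  have := vpm_ge H z Y
  linarith

/-- `vpm` is differentiable away from the fibre, with small derivative -/
theorem exists_hasFDerivAt_vpm (h0 : ft T w z Y ≠ 0)
    (hpt : ‖fderiv ℝ w Y‖ ≤ κ * ‖ft T w z Y‖) :
    ∃ L : E →L[ℝ] ℝ, HasFDerivAt (vpm T w z) L Y ∧ ‖L‖ ≤ 6 * κ ^ 2 * ‖ft T w z Y‖ := by
  have hw := H.ref
  have hk := hw.knn
  have h0' : 0 < ‖ft T w z Y‖ := norm_pos_iff.2 h0
  have hne : ‖ft T w z Y‖ ^ 2 ≠ 0 := by positivity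
  set X := ft T w z Y with hX
  set n := X - PS T w Y X with hn
  set g := gmF T w z Y with hg
  set A := fderiv ℝ w Y with hA
  have hnn : ‖n‖ ≤ κ * ‖X‖ * ‖X‖ := norm_n_le H z hpt
  have hgX : ‖g‖ ≤ ‖X‖ := norm_gmF_le_ft H z Y
  have hcX : ‖cRm T w z Y‖ ≤ ‖X‖ := norm_cRm_le H z Y
  have hAg : ‖A g‖ ≤ (κ * ‖X‖) * ‖X‖ := (A.le_opNorm g).trans (by gcongr)
  have hd2 : ‖D2 w Y g‖ ≤ κ * ‖X‖ :=
    ((D2 w Y).le_opNorm _).trans (by gcongr; exact hw.norm_D2_le Y)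
  have h1 : HasFDerivAt (fun y => (‖ft T w z y‖ ^ 2)⁻¹)
      ((-((‖X‖ ^ 2) ^ 2)⁻¹) • ((2:ℝ) • innerSL ℝ (cRm T w z Y))) Y :=
    (hasDerivAt_inv hne).comp_hasFDerivAt Y (hasFDerivAt_norm_sq_ft H z Y)
  have h2 := ((hasFDerivAt_nsq H z Y).mul h1).const_sub 1
  have h3 : vpm T w z = fun y => 1 - ‖ft T w z y - PS T w y (ft T w z y)‖ ^ 2
      * (‖ft T w z y‖ ^ 2)⁻¹ := by
    funext y; unfold vpm; rw [div_eq_mul_inv]
  rw [h3]
  refine ⟨_, h2, ?_⟩
  rw [norm_neg]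
  have e1 : ‖‖n‖ ^ 2 • ((-((‖X‖ ^ 2) ^ 2)⁻¹) • ((2:ℝ) • innerSL ℝ (cRm T w z Y)))‖
      ≤ (κ * ‖X‖ * ‖X‖) ^ 2 * (((‖X‖ ^ 2) ^ 2)⁻¹ * (2 * ‖X‖)) := by
    rw [norm_smul, norm_smul, norm_smul, norm_pow, norm_norm, norm_neg, norm_inv,
      innerSL_apply_norm]
    have a3 : ‖(2:ℝ)‖ = 2 := by norm_num
    have a4 : ‖(‖X‖ ^ 2) ^ 2‖ = (‖X‖ ^ 2) ^ 2 := by
      rw [Real.norm_eq_abs, abs_of_nonneg (by positivity)]
    rw [a3, a4]
    gcongr
  have e2 : ‖(‖X‖ ^ 2)⁻¹ • ((2:ℝ) • (innerSL ℝ (A g)).comp (A + D2 w Y g))‖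
      ≤ (‖X‖ ^ 2)⁻¹ * (2 * (((κ * ‖X‖) * ‖X‖) * (κ * ‖X‖ + κ * ‖X‖))) := by
    have a1 : ‖(innerSL ℝ (A g)).comp (A + D2 w Y g)‖
        ≤ ((κ * ‖X‖) * ‖X‖) * (κ * ‖X‖ + κ * ‖X‖) := by
      refine (ContinuousLinearMap.opNorm_comp_le _ _).trans ?_
      rw [innerSL_apply_norm]
      gcongr
      exact (norm_add_le _ _).trans (add_le_add hpt hd2)
    have a2 : ‖(2:ℝ)‖ = 2 := by norm_num
    have a4 : ‖‖X‖ ^ 2‖ = ‖X‖ ^ 2 := by
      rw [Real.norm_eq_abs, abs_of_nonneg (by positivity)]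
    rw [norm_smul, norm_smul, norm_inv, a2, a4]
    gcongr
  refine (norm_add_le _ _).trans ((add_le_add e1 e2).trans (le_of_eq ?_))
  field_simp
  ring

lemma vpm_base (z Y : E) : vpm T w z (T.starProjection Y) = vpm T w z Y := by
  unfold vpm
  rw [ft_base H, H.ref.PS_base]

lemma beF_base (z Y : E) : beF T w z (T.starProjection Y) = beF T w z Y := by
  unfold beF
  rw [vpm_base H, gmF_base H]

lemma star_beF (z Y : E) : T.starProjection (beF T w z Y) = beF T w z Y := by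
  unfold beF
  rw [map_smul, star_gmF H]

lemma beT_base (z : E) (t : ℝ) (Y : E) :
    beT T w z t (T.starProjection Y) = beT T w z t Y := by
  unfold beT
  rw [beF_base H, ft_base H]

lemma star_beT (z : E) (t : ℝ) (Y : E) : T.starProjection (beT T w z t Y) = beT T w z t Y := by
  unfold beT
  rw [map_add, map_smul, map_sub, star_beF H, star_ft H]

lemma inv_vpm_le (z Y : E) : (vpm T w z Y)⁻¹ ≤ 64 / 63 := by
  have hv := vpm_ge H z Y
  rw [inv_le_comm₀ (by linarith) (by norm_num)]; linarith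

/-- `|beF - ft| ≤ 3 a² |ft|` -/
lemma norm_beF_sub_le {a : ℝ} (z : E) (hA : ‖fderiv ℝ w Y‖ ≤ a) :
    ‖beF T w z Y - ft T w z Y‖ ≤ 3 * a ^ 2 * ‖ft T w z Y‖ := by
  have ha : 0 ≤ a := (norm_nonneg _).trans hA
  have hv := vpm_ge H z Y
  have hvpos : 0 < vpm T w z Y := by linarith
  have hv1 := vpm_le_one H z Y
  have i1 := inv_vpm_le H z Y
  have i2 : 1 ≤ (vpm T w z Y)⁻¹ := by rw [one_le_inv₀ hvpos]; exact hv1
  have hg := norm_gmF_le_ft H z Y
  have e1 : beF T w z Y - ft T w z Y = ((vpm T w z Y)⁻¹ - 1) • gmF T w z Y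
      - adj (fderiv ℝ w Y) (fderiv ℝ w Y (gmF T w z Y)) := by
    have := G_gmF H z Y
    have h2 : ft T w z Y = gmF T w z Y
        + adj (fderiv ℝ w Y) (fderiv ℝ w Y (gmF T w z Y)) := this.symm
    unfold beF
    rw [h2, sub_smul, one_smul]; abel
  have n1 : ‖((vpm T w z Y)⁻¹ - 1) • gmF T w z Y‖ ≤ (64 / 63 * a ^ 2) * ‖ft T w z Y‖ := by
    rw [norm_smul, Real.norm_eq_abs, abs_of_nonneg (by linarith)]
    have : (vpm T w z Y)⁻¹ - 1 = (vpm T w z Y)⁻¹ * (1 - vpm T w z Y) := by field_simp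
    rw [this]
    have := one_sub_vpm_le H (Y := Y) z hA
    gcongr
  have n2 : ‖adj (fderiv ℝ w Y) (fderiv ℝ w Y (gmF T w z Y))‖ ≤ a * (a * ‖ft T w z Y‖) := by
    refine (norm_adj_apply_le _ _).trans ?_
    gcongr
    refine ((fderiv ℝ w Y).le_opNorm _).trans ?_
    gcongr
  rw [e1]
  refine (norm_sub_le _ _).trans ((add_le_add n1 n2).trans ?_)
  have : 0 ≤ a ^ 2 * ‖ft T w z Y‖ := by positivity
  nlinarith

/-- **derivative of the normalised gradient field** -/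
theorem exists_hasFDerivAt_beF (h0 : ft T w z Y ≠ 0)
    (hpt : ‖fderiv ℝ w Y‖ ≤ κ * ‖ft T w z Y‖) (hr : κ * ‖ft T w z Y‖ ≤ 1 / 8) :
    ∃ b : E →L[ℝ] E, HasFDerivAt (beF T w z) b Y ∧
      ‖b - T.starProjection‖ ≤ 3 * (κ * ‖ft T w z Y‖) ∧
      (lap w (PS T w Y) Y = 0 →
        |divg w Y (beF T w z Y) b - Module.finrank ℝ T|
          ≤ (3 * Module.finrank ℝ T + 7) * (κ * ‖ft T w z Y‖) ^ 2) := by
  have hw := H.ref
  have hk := hw.knn
  obtain ⟨L, hL, hLn⟩ := exists_hasFDerivAt_vpm H h0 hpt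
  have hv := vpm_ge H z Y
  have hv1 := vpm_le_one H z Y
  have hov := one_sub_vpm_le H (Y := Y) z hpt
  have i1 := inv_vpm_le H z Y
  set v := vpm T w z Y with hvd
  have hvpos : 0 < v := by linarith
  have hvne : vpm T w z Y ≠ 0 := hvpos.ne'
  set X := ft T w z Y with hX
  set g := gmF T w z Y with hg
  have hgX : ‖g‖ ≤ ‖X‖ := norm_gmF_le_ft H z Y
  have hinv : HasFDerivAt (fun y => (vpm T w z y)⁻¹) ((-(v ^ 2)⁻¹) • L) Y := by
    have h1 := (hasDerivAt_inv hvne).comp_hasFDerivAt Y hL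
    exact h1
  have hbe := hinv.smul (hasFDerivAt_gmF H z Y)
  have i0 : 0 ≤ v⁻¹ := by positivity
  have i2 : 1 ≤ v⁻¹ := by rw [one_le_inv₀ hvpos]; exact hv1
  have i3 : v⁻¹ - 1 ≤ 64 / 63 * (κ * ‖X‖) ^ 2 := by
    have : v⁻¹ - 1 = v⁻¹ * (1 - v) := by field_simp
    rw [this]
    gcongr
  have i4 : (v ^ 2)⁻¹ ≤ (64 / 63) ^ 2 := by
    rw [← inv_pow]; gcongr
  refine ⟨_, hbe, ?_, ?_⟩
  · have e1 : (vpm T w z Y)⁻¹ • dgm T w z Y
        + ((-(v ^ 2)⁻¹) • L).smulRight (gmF T w z Y) - T.starProjection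
        = v⁻¹ • (dgm T w z Y - T.starProjection) + (v⁻¹ - 1) • T.starProjection
          + ((-(v ^ 2)⁻¹) • L).smulRight g := by
      rw [← hvd, ← hg]; module
    rw [e1]
    have n1 : ‖dgm T w z Y - T.starProjection‖ ≤ κ * ‖X‖ := norm_dgm_sub_le H z hpt le_rfl
    have n2 : ‖T.starProjection‖ ≤ 1 := T.starProjection_norm_le
    have n3 : ‖((-(v ^ 2)⁻¹) • L).smulRight g‖ ≤ (64 / 63) ^ 2 * (6 * κ ^ 2 * ‖X‖) * ‖X‖ := by
      rw [ContinuousLinearMap.norm_smulRight_apply, norm_smul, norm_neg, norm_inv, norm_pow,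
        Real.norm_eq_abs, abs_of_pos hvpos]
      gcongr
    set x := κ * ‖X‖ with hx
    have hx0 : 0 ≤ x := by positivity
    calc _ ≤ ‖v⁻¹ • (dgm T w z Y - T.starProjection)‖ + ‖(v⁻¹ - 1) • T.starProjection‖
          + ‖((-(v ^ 2)⁻¹) • L).smulRight g‖ := norm_add₃_le
      _ ≤ 64 / 63 * x + 64 / 63 * x ^ 2 * 1 + (64 / 63) ^ 2 * (6 * κ ^ 2 * ‖X‖) * ‖X‖ := by
          gcongr
          · rw [norm_smul, Real.norm_eq_abs, abs_of_nonneg i0]; gcongr
          · rw [norm_smul, Real.norm_eq_abs, abs_of_nonneg (by linarith)]; gcongr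
      _ = 64 / 63 * x + (64 / 63 + (64 / 63) ^ 2 * 6) * x ^ 2 := by rw [hx]; ring
      _ ≤ 3 * x := by nlinarith
  · intro hmin
    have h1 := divg_gmF H z Y hmin
    have e1 : divg w Y (beF T w z Y) ((vpm T w z Y)⁻¹ • dgm T w z Y
        + ((-(v ^ 2)⁻¹) • L).smulRight (gmF T w z Y))
        = v⁻¹ * divg w Y (gmF T w z Y) (dgm T w z Y) - (v ^ 2)⁻¹ * L g := by
      unfold divg beF
      rw [tr_add, tr_smul, tr_smulRight, map_smul, ← hvd]
      have : Gi (fderiv ℝ w Y) * adj (fderiv ℝ w Y) * (v⁻¹ • D2 w Y (gmF T w z Y))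
          = v⁻¹ • (Gi (fderiv ℝ w Y) * adj (fderiv ℝ w Y) * D2 w Y (gmF T w z Y)) := by
        rw [mul_smul_comm]
      rw [this, tr_smul]
      have : ((-(v ^ 2)⁻¹) • L) (gmF T w z Y) = -(v ^ 2)⁻¹ * L g := rfl
      rw [this]; ring
    rw [e1, h1]
    have n1 : |L g| ≤ 6 * κ ^ 2 * ‖X‖ * ‖X‖ := by
      calc |L g| ≤ ‖L‖ * ‖g‖ := L.le_opNorm g
        _ ≤ _ := by gcongr
    have htl : |tlt w Y| ≤ Module.finrank ℝ T * (κ * ‖X‖) ^ 2 := by
      refine (tlt_bounds H Y).trans ?_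
      have := norm_nonneg (fderiv ℝ w Y)
      gcongr
    set x := κ * ‖X‖ with hx
    have hx2 : 6 * κ ^ 2 * ‖X‖ * ‖X‖ = 6 * x ^ 2 := by rw [hx]; ring
    rw [hx2] at n1
    have hn : (0:ℝ) ≤ Module.finrank ℝ T := Nat.cast_nonneg _
    have p0 : 0 ≤ v⁻¹ - 1 := by linarith
    calc |v⁻¹ * ((Module.finrank ℝ T : ℝ) - tlt w Y) - (v ^ 2)⁻¹ * L g - Module.finrank ℝ T|
        = |(v⁻¹ - 1) * Module.finrank ℝ T - v⁻¹ * tlt w Y - (v ^ 2)⁻¹ * L g| := by
          congr 1; ring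
      _ ≤ |(v⁻¹ - 1) * Module.finrank ℝ T| + |v⁻¹ * tlt w Y| + |(v ^ 2)⁻¹ * L g| :=
          (abs_sub _ _).trans (add_le_add_left (abs_sub _ _) _)
      _ = (v⁻¹ - 1) * Module.finrank ℝ T + v⁻¹ * |tlt w Y| + (v ^ 2)⁻¹ * |L g| := by
          rw [abs_of_nonneg (by positivity), abs_mul, abs_of_nonneg i0, abs_mul,
            abs_of_nonneg (by positivity : (0:ℝ) ≤ (v ^ 2)⁻¹)]
      _ ≤ (64 / 63 * x ^ 2) * Module.finrank ℝ T + 64 / 63 * (Module.finrank ℝ T * x ^ 2)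
          + (64 / 63) ^ 2 * (6 * x ^ 2) := by
          gcongr
      _ ≤ (3 * Module.finrank ℝ T + 7) * x ^ 2 := by
          have : 0 ≤ x ^ 2 := by positivity
          nlinarith [mul_nonneg hn this]

/-- comparison of the Fermi extension of `beF` with the ambient gradient -/
theorem norm_ze_sub_le (hY : ‖co T Y‖ < h₁) (z : E) :
    ‖zeF T w (beF T w z) Y - (vpm T w z Y)⁻¹ • adj (Jm T w h₁ Y) (cRm T w z Y)‖
      ≤ 4 * (κ * ‖co T Y‖) * ‖ft T w z Y‖ := by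
  have hw := H.ref
  have hk := hw.knn
  have hv := vpm_ge H z Y
  have hvpos : 0 < vpm T w z Y := by linarith
  have e1 : zeF T w (beF T w z) Y - (vpm T w z Y)⁻¹ • adj (Jm T w h₁ Y) (cRm T w z Y)
      = (vpm T w z Y)⁻¹ • (Dm w Y (co T Y) (Gi (fderiv ℝ w Y) (cRm T w z Y))
        - adj (Jm T w h₁ Y) (cRm T w z Y)) := by
    unfold zeF beF gmF
    rw [map_smul, smul_sub]
  rw [e1, norm_smul, Real.norm_eq_abs, abs_of_pos (by positivity)]
  have h1 := norm_Dm_Gi_sub_le H hY (star_cRm H z Y)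
  have h2 := norm_cRm_le H z Y
  have i1 := inv_vpm_le H z Y
  calc _ ≤ 64 / 63 * (3 * (κ * ‖co T Y‖) * ‖ft T w z Y‖) := by
        gcongr
        exact h1
    _ ≤ 4 * (κ * ‖co T Y‖) * ‖ft T w z Y‖ := by
        have : 0 ≤ (κ * ‖co T Y‖) * ‖ft T w z Y‖ := by positivity
        nlinarith

theorem norm_xg_sub_le (hY : ‖co T Y‖ < h₁) (z : E) :
    ‖zeF T w (gmF T w z) Y - adj (Jm T w h₁ Y) (cRm T w z Y)‖
      ≤ 4 * (κ * ‖co T Y‖) * ‖ft T w z Y‖ := by
  have hw := H.ref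
  have hk := hw.knn
  have h1 := norm_Dm_Gi_sub_le H hY (star_cRm H z Y)
  calc _ ≤ 3 * (κ * ‖co T Y‖) * ‖cRm T w z Y‖ := h1
    _ ≤ 4 * (κ * ‖co T Y‖) * ‖ft T w z Y‖ := by
        have : 0 ≤ (κ * ‖co T Y‖) * ‖ft T w z Y‖ := by positivity
        have e : ‖cRm T w z Y‖ = ‖ft T w z Y‖ := rfl
        rw [e]
        nlinarith

end

/-! ### the field at scale `t` -/

/-- constant of the divergence defect of `beT` -/
noncomputable def cBe (n m : ℕ) : ℝ := n + 3 * m + 7 + 32 * cT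

lemma cBe_nonneg (n m : ℕ) : 0 ≤ cBe n m := by
  unfold cBe; have := cT_nonneg; positivity

lemma cT_mul_le {x : ℝ} (hx : x ≤ eps0) : cT * x ≤ 1 / 64 := by
  have hc := cT_nonneg
  calc cT * x ≤ cT * eps0 := by gcongr
    _ ≤ 1 / 64 := by
        unfold eps0
        rw [mul_one_div, div_le_div_iff₀ (by positivity) (by norm_num)]
        linarith

section be

variable (H : Adm T w ε κ h₁) {t : ℝ}
include H

lemma divg_ft (z Y : E) (hA : ‖fderiv ℝ w Y‖ ≤ κ * t) (hr : ‖ft T w z Y‖ ≤ t) :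
    |divg w Y (ft T w z Y) T.starProjection - Module.finrank ℝ T|
      ≤ Module.finrank ℝ E * (κ * t) ^ 2 := by
  have hw := H.ref
  have hk := hw.knn
  have hAn := norm_nonneg (fderiv ℝ w Y)
  have h1 : divg w Y (ft T w z Y) T.starProjection - Module.finrank ℝ T
      = trH (Gi (fderiv ℝ w Y) * adj (fderiv ℝ w Y) * D2 w Y (ft T w z Y)) := by
    have h2 : divg w Y (ft T w z Y) T.starProjection = trH T.starProjection
        + trH (Gi (fderiv ℝ w Y) * adj (fderiv ℝ w Y) * D2 w Y (ft T w z Y)) := rfl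
    rw [h2, trH_starProjection]; ring
  rw [h1]
  refine (abs_trH_le (c := (κ * t) * (κ * t)) _ ?_).trans (le_of_eq ?_)
  · refine (norm_mul_le _ _).trans ?_
    have n1 : ‖Gi (fderiv ℝ w Y) * adj (fderiv ℝ w Y)‖ ≤ κ * t := by
      refine (norm_mul_le _ _).trans ?_
      rw [norm_adj]
      calc _ ≤ 1 * (κ * t) := by gcongr; exact norm_Gi_le _
        _ = _ := one_mul _
    have n2 : ‖D2 w Y (ft T w z Y)‖ ≤ κ * t :=
      ((D2 w Y).le_opNorm _).trans (by gcongr; exact hw.norm_D2_le Y)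
    have : 0 ≤ κ * t := hAn.trans hA
    gcongr
  · ring

/-- **derivative of the base field at scale `t`** -/
theorem exists_hasFDerivAt_beT (ht : 0 < t) (hκ : κ * t ≤ eps0) (hr : ‖ft T w z Y‖ ≤ t)
    (hAt : ‖fderiv ℝ w Y‖ ≤ κ * t)
    (hpt : t / 4 ≤ ‖ft T w z Y‖ → ‖fderiv ℝ w Y‖ ≤ κ * ‖ft T w z Y‖) :
    ∃ b : E →L[ℝ] E, HasFDerivAt (beT T w z t) b Y ∧
      ‖b - T.starProjection‖ ≤ 4 * (κ * t) ∧
      (lap w (PS T w Y) Y = 0 →
        |divg w Y (beT T w z t Y) b - Module.finrank ℝ T|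
          ≤ cBe (Module.finrank ℝ E) (Module.finrank ℝ T) * (κ * t) ^ 2) := by
  have hw := H.ref
  have hk := hw.knn
  have hc := cT_nonneg
  have hkt0 : 0 ≤ κ * t := by positivity
  have hcx := cT_mul_le hκ
  have hm0 : (0:ℝ) ≤ Module.finrank ℝ T := Nat.cast_nonneg _
  have hn0 : (0:ℝ) ≤ Module.finrank ℝ E := Nat.cast_nonneg _
  rcases lt_or_ge ‖ft T w z Y‖ (t / 4) with hlt | hge
  · -- near the fibre the field is the base position
    have hcont : Continuous fun y => ‖ft T w z y‖ := by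
      have : Continuous (ft T w z) := T.starProjection.continuous.comp
        (continuous_id.sub continuous_const)
      exact this.norm
    have hzero : ∀ y, ‖ft T w z y‖ < t / 4 → beT T w z t y = ft T w z y := by
      intro y hy
      unfold beT
      rw [cb_zero, zero_smul, add_zero]
      rw [div_le_iff₀ (by positivity)]
      calc ‖ft T w z y‖ ^ 2 ≤ (t / 4) ^ 2 := by gcongr
        _ = _ := by ring
    have hev : beT T w z t =ᶠ[𝓝 Y] ft T w z := by
      filter_upwards [hcont.continuousAt.eventually_lt continuousAt_const hlt] with y hy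
      exact hzero y hy
    refine ⟨T.starProjection, (hasFDerivAt_ft H z Y).congr_of_eventuallyEq hev, ?_, fun _ => ?_⟩
    · rw [sub_self, norm_zero]; positivity
    · rw [hzero Y hlt]
      refine (divg_ft H z Y hAt hr).trans ?_
      unfold cBe
      gcongr
      linarith
  · -- away from the fibre
    have hX0 : 0 < ‖ft T w z Y‖ := by
      have : 0 < t / 4 := by positivity
      linarith
    have hne : ft T w z Y ≠ 0 := norm_pos_iff.1 hX0
    have hA := hpt hge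
    have hkr : κ * ‖ft T w z Y‖ ≤ κ * t := by gcongr
    have he0 : eps0 ≤ 1 / 16 := eps0_le
    obtain ⟨b, hb, hbn, hbd⟩ := exists_hasFDerivAt_beF H hne hA (by linarith)
    set s := ‖ft T w z Y‖ ^ 2 / t ^ 2 with hs
    obtain ⟨d, hd, hdn⟩ := exists_hasDerivAt_cb s
    have hsd : HasFDerivAt (fun y => ‖ft T w z y‖ ^ 2 / t ^ 2)
        ((t ^ 2)⁻¹ • ((2:ℝ) • innerSL ℝ (cRm T w z Y))) Y := by
      have h1 := (hasFDerivAt_norm_sq_ft H z Y).mul_const ((t ^ 2)⁻¹)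
      refine h1.congr_of_eventuallyEq (Eventually.of_forall fun x => ?_)
      show ‖ft T w z x‖ ^ 2 / t ^ 2 = ‖ft T w z x‖ ^ 2 * (t ^ 2)⁻¹
      rw [div_eq_mul_inv]
    have hcbd : HasFDerivAt (fun y => cb (‖ft T w z y‖ ^ 2 / t ^ 2))
        (d • ((t ^ 2)⁻¹ • ((2:ℝ) • innerSL ℝ (cRm T w z Y)))) Y :=
      HasDerivAt.comp_hasFDerivAt (h₂ := cb) Y hd hsd
    have hbt := (hasFDerivAt_ft H z Y).add (hcbd.smul (hb.sub (hasFDerivAt_ft H z Y)))
    set L := d • ((t ^ 2)⁻¹ • ((2:ℝ) • innerSL ℝ (cRm T w z Y))) with hL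
    set q := beF T w z Y - ft T w z Y with hq
    have hqn : ‖q‖ ≤ 3 * (κ * ‖ft T w z Y‖) ^ 2 * ‖ft T w z Y‖ := norm_beF_sub_le H z hA
    have hLn : ‖L‖ ≤ 16 / 3 * cT * ((t ^ 2)⁻¹ * (2 * ‖ft T w z Y‖)) := by
      rw [hL, norm_smul, norm_smul, norm_smul, innerSL_apply_norm, norm_inv, Real.norm_eq_abs,
        Real.norm_eq_abs, Real.norm_eq_abs, abs_of_pos (by positivity : (0:ℝ) < t ^ 2),
        abs_of_pos (by norm_num : (0:ℝ) < 2)]
      gcongr
      exact le_rfl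
    have hLq : ‖L‖ * ‖q‖ ≤ 32 * cT * (κ * t) ^ 2 := by
      calc ‖L‖ * ‖q‖ ≤ (16 / 3 * cT * ((t ^ 2)⁻¹ * (2 * t))) * (3 * (κ * t) ^ 2 * t) := by
            gcongr
            · exact hLn.trans (by gcongr)
            · exact hqn.trans (by gcongr)
        _ = _ := by field_simp; ring
    have hcb0 := cb_nonneg s
    have hcb1 := cb_le_one s
    have hbt' : HasFDerivAt (beT T w z t)
        (T.starProjection + (cb s • (b - T.starProjection) + L.smulRight q)) Y := hbt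
    refine ⟨_, hbt', ?_, fun hmin => ?_⟩
    · have e1 : T.starProjection + (cb s • (b - T.starProjection) + L.smulRight q)
          - T.starProjection = cb s • (b - T.starProjection) + L.smulRight q := by abel
      rw [e1]
      calc _ ≤ ‖cb s • (b - T.starProjection)‖ + ‖L.smulRight q‖ := norm_add_le _ _
        _ = cb s * ‖b - T.starProjection‖ + ‖L‖ * ‖q‖ := by
            rw [norm_smul, Real.norm_eq_abs, abs_of_nonneg hcb0,
              ContinuousLinearMap.norm_smulRight_apply]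
        _ ≤ 1 * (3 * (κ * t)) + 32 * cT * (κ * t) ^ 2 := by
            gcongr
            exact hbn.trans (by gcongr)
        _ = (3 + 32 * (cT * (κ * t))) * (κ * t) := by ring
        _ ≤ (3 + 32 * (1 / 64)) * (κ * t) := by gcongr
        _ ≤ 4 * (κ * t) := by linarith
    · have e1 : divg w Y (beT T w z t Y)
          (T.starProjection + (cb s • (b - T.starProjection) + L.smulRight q))
          = (1 - cb s) * divg w Y (ft T w z Y) T.starProjection
            + cb s * divg w Y (beF T w z Y) b + L q := by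
        have a1 : beT T w z t Y = (1 - cb s) • ft T w z Y + cb s • beF T w z Y := by
          unfold beT
          rw [← hs]; module
        have a2 : T.starProjection + (cb s • (b - T.starProjection) + L.smulRight q)
            = (1 - cb s) • T.starProjection + cb s • b + L.smulRight q := by module
        rw [a2]
        unfold divg
        rw [a1, map_add, map_smul, map_smul, tr_add, tr_add, tr_smul, tr_smul, tr_smulRight,
          mul_add, mul_smul_comm, mul_smul_comm, tr_add, tr_smul, tr_smul]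
        ring
      rw [e1]
      have k1 := divg_ft H z Y hAt hr
      have k2 : |divg w Y (beF T w z Y) b - Module.finrank ℝ T|
          ≤ (3 * Module.finrank ℝ T + 7) * (κ * t) ^ 2 :=
        (hbd hmin).trans (by gcongr)
      have k3 : |L q| ≤ 32 * cT * (κ * t) ^ 2 := (L.le_opNorm q).trans hLq
      have e2 : (1 - cb s) * divg w Y (ft T w z Y) T.starProjection
            + cb s * divg w Y (beF T w z Y) b + L q - Module.finrank ℝ T
          = (1 - cb s) * (divg w Y (ft T w z Y) T.starProjection - Module.finrank ℝ T)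
            + cb s * (divg w Y (beF T w z Y) b - Module.finrank ℝ T) + L q := by ring
      rw [e2]
      calc _ ≤ |(1 - cb s) * (divg w Y (ft T w z Y) T.starProjection - Module.finrank ℝ T)|
            + |cb s * (divg w Y (beF T w z Y) b - Module.finrank ℝ T)| + |L q| :=
            abs_add_three _ _ _
        _ = (1 - cb s) * |divg w Y (ft T w z Y) T.starProjection - Module.finrank ℝ T|
            + cb s * |divg w Y (beF T w z Y) b - Module.finrank ℝ T| + |L q| := by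
            rw [abs_mul, abs_mul, abs_of_nonneg hcb0, abs_of_nonneg (by linarith : 0 ≤ 1 - cb s)]
        _ ≤ 1 * (Module.finrank ℝ E * (κ * t) ^ 2)
            + 1 * ((3 * Module.finrank ℝ T + 7) * (κ * t) ^ 2) + 32 * cT * (κ * t) ^ 2 := by
            gcongr
            linarith
        _ = _ := by unfold cBe; ring

/-- comparison of `ze_t` with the ambient gradient -/
theorem exists_ze_sub (hY : ‖co T Y‖ < h₁) (ht : 0 < t) (hAt : ‖fderiv ℝ w Y‖ ≤ κ * t) :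
    ∃ r v : E, zeF T w (beT T w z t) Y - (vpm T w z Y)⁻¹ • adj (Jm T w h₁ Y) (cRm T w z Y)
        = r + Dm w Y (co T Y) v ∧
      ‖r‖ ≤ 4 * (κ * ‖co T Y‖) * ‖ft T w z Y‖ ∧ T.starProjection v = v ∧
      ‖v‖ ≤ 3 * (κ * t) ^ 2 * ‖ft T w z Y‖ ∧ (t / 2 ≤ ‖ft T w z Y‖ → v = 0) := by
  refine ⟨zeF T w (beF T w z) Y - (vpm T w z Y)⁻¹ • adj (Jm T w h₁ Y) (cRm T w z Y),
    beT T w z t Y - beF T w z Y, ?_, norm_ze_sub_le H hY z, ?_, ?_, ?_⟩
  · unfold zeF
    rw [map_sub]; abel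
  · rw [map_sub, star_beT H, star_beF H]
  · have e1 : beT T w z t Y - beF T w z Y
        = -((1 - cb (‖ft T w z Y‖ ^ 2 / t ^ 2)) • (beF T w z Y - ft T w z Y)) := by
      unfold beT; module
    have hcb0 := cb_nonneg (‖ft T w z Y‖ ^ 2 / t ^ 2)
    have hcb1 := cb_le_one (‖ft T w z Y‖ ^ 2 / t ^ 2)
    rw [e1, norm_neg, norm_smul, Real.norm_eq_abs, abs_of_nonneg (by linarith)]
    calc _ ≤ 1 * (3 * (κ * t) ^ 2 * ‖ft T w z Y‖) := by
          gcongr
          · linarith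
          · exact norm_beF_sub_le H z hAt
      _ = _ := one_mul _
  · intro h
    have hs : 1 / 4 ≤ ‖ft T w z Y‖ ^ 2 / t ^ 2 := by
      rw [le_div_iff₀ (by positivity)]
      calc 1 / 4 * t ^ 2 = (t / 2) ^ 2 := by ring
        _ ≤ _ := by gcongr
    unfold beT
    rw [cb_one hs, one_smul]; abel

end be

end Vale.Agent.P214.ODET
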